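import Vale.Agent.N318X.Red

/-!
An approximation algorithm for cubic bipartite graphs gives one for all instances.
-/

namespace Vale.Agent.N318X

open Finset Vale.Agent.Lib.PolyTime
open Vale.Agent.P318B (Inst)
open Vale.Agent.P318B.Ax (nd mat cutN crd den)

/-- the indicator word of a set -/
def wd {n : ℕ} (S : Finset (Fin n)) : List Bool := List.ofFn fun i => decide (i ∈ S)

/-- a letter as a number -/
def bt (s : List Bool) (i : ℕ) : ℕ := bif s.getD i false then 1 else 0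

/-- the word read off from the walls -/
def bk (n q : ℕ) (s : List Bool) : List Bool :=
  (List.range n).map fun v => decide (q < ((List.range q).map fun c =>
    bt s (((v * q + c) * q + 0) * 2) + bt s (((v * q + c) * q + (q - 1)) * 2 + 1)).sum)

/-- the thresholds -/
def thr (D : ℕ) (M : List (List (ℕ × ℕ))) : List (ℕ × ℕ) :=
  ((1, 1) :: M.flatten).flatMap fun e => (List.range D).map fun k => (e.1 * (k + 1), e.2 * D)

/-- the denominator of the ratio -/
def dn (s : List Bool) : ℕ := crd s * (s.length - crd s)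

/-- the best of a list of cuts -/
def best (M : List (List (ℕ × ℕ))) (l : List (List Bool)) : List Bool :=
  (l.find? fun s => decide (0 < dn s) &&
    l.all fun s' => decide (cutN M s * dn s' ≤ cutN M s' * dn s)).getD []

theorem bt_wd {N : ℕ} (T : Finset (Fin N)) (i : ℕ) : (bt (wd T) i : ℝ) = ind T i := by
  by_cases h : i < N
  · by_cases k : (⟨i, h⟩ : Fin N) ∈ T <;> simp [bt, wd, ind, ext2, h, k]
  · simp [bt, wd, ind, ext2, h]

theorem sum_list {q : ℕ} {f : ℕ → ℕ} : ∑ c ∈ range q, f c = ((List.range q).map f).sum := rfl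

theorem bk_wd (n q : ℕ) {N : ℕ} (T : Finset (Fin N)) : bk n q (wd T) = wd (back n q T) := by
  rw [bk, ← P318B.Gd.ofFn_range]
  refine congrArg List.ofFn (funext fun v => decide_eq_decide.2 ?_)
  rw [← Nat.cast_lt (α := ℝ), ← sum_list]
  push_cast
  rw [back, mem_filter, maj]
  simp only [bt_wd]
  split_ifs with h <;> simp only [h, zero_ne_one, mem_univ, and_self, and_false]

theorem dn_wd {n : ℕ} (S : Finset (Fin n)) : (dn (wd S) : ℝ) = S.card * (n - S.card) := by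
  rw [dn, wd, P318B.Ax.crd_eq, List.length_ofFn, Nat.cast_mul,
    Nat.cast_sub (by simpa using S.card_le_univ)]

theorem dn_pos {n : ℕ} {S : Finset (Fin n)} : 0 < dn (wd S) ↔ Proper S := by
  rw [dn, wd, P318B.Ax.crd_eq, List.length_ofFn, proper_iff, Nat.pos_iff_ne_zero,
    mul_ne_zero_iff]
  omega

theorem cmp_iff (I : Inst) {S S' : Finset (Fin I.n)} (h : Proper S) (h' : Proper S') :
    cutN (mat I) (wd S) * dn (wd S') ≤ cutN (mat I) (wd S') * dn (wd S) ↔
      ratio (rc I) S ≤ ratio (rc I) S' := by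
  have d0 : (0 : ℝ) < den (mat I) := by exact_mod_cast P318B.Ax.den_pos I
  rw [← Nat.cast_le (α := ℝ), Nat.cast_mul, Nat.cast_mul, dn_wd, dn_wd, wd, wd, P318B.Ax.cutN_eq,
    P318B.Ax.cutN_eq, mul_right_comm, mul_right_comm _ (den (mat I) : ℝ), mul_le_mul_iff_left₀ d0]
  exact (div_le_div_iff₀ (P318B.Gd.card_pos_cut h.1 h.2) (P318B.Gd.card_pos_cut h'.1 h'.2)).symm

theorem best_spec (I : Inst) {l : List (Finset (Fin I.n))} {S0 : Finset (Fin I.n)} (h0 : S0 ∈ l)
    (h1 : Proper S0) : ∃ S, best (mat I) (l.map wd) = wd S ∧ Proper S ∧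
      ratio (rc I) S ≤ ratio (rc I) S0 := by
  classical
  unfold best
  rcases e : (l.map wd).find? fun s => decide (0 < dn s) && (l.map wd).all fun s' =>
    decide (cutN (mat I) s * dn s' ≤ cutN (mat I) s' * dn s) with _ | s
  · exfalso
    obtain ⟨S, s1, s2⟩ := exists_min_image (l.toFinset.filter Proper) (ratio (rc I))
      ⟨S0, by simp [h0, h1]⟩
    simp only [mem_filter, List.mem_toFinset] at s1 s2
    refine List.find?_eq_none.1 e (wd S) (List.mem_map_of_mem s1.1) ?_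
    simp only [Bool.and_eq_true, decide_eq_true_iff, List.all_eq_true, List.forall_mem_map]
    refine ⟨dn_pos.2 s1.2, fun S' hS' => ?_⟩
    by_cases k : Proper S'
    · exact (cmp_iff I s1.2 k).2 (s2 S' ⟨hS', k⟩)
    · rw [Nat.eq_zero_of_not_pos (mt dn_pos.1 k)]
      exact Nat.zero_le _
  · have a := List.find?_some e
    obtain ⟨S, -, rfl⟩ := List.mem_map.1 (List.mem_of_find?_eq_some e)
    simp only [Bool.and_eq_true, decide_eq_true_iff, List.all_eq_true, List.forall_mem_map] at a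
    exact ⟨S, rfl, dn_pos.1 a.1, (cmp_iff I (dn_pos.1 a.1) h1).1 (a.2 S0 h0)⟩

theorem le_cut {n : ℕ} {c : Fin n → Fin n → ℝ} (hc : IsCap c) {S : Finset (Fin n)} {i j : Fin n}
    (hi : i ∈ S) (hj : j ∈ Sᶜ) : c i j ≤ cut c S :=
  (single_le_sum (f := c i) (fun _ _ => hc.2.1 _ _) hj).trans
    (single_le_sum (f := fun i => ∑ j ∈ Sᶜ, c i j) (fun _ _ => sum_nonneg fun _ _ => hc.2.1 _ _) hi)

theorem cut_le {n : ℕ} (c : Fin n → Fin n → ℝ) (x : ℝ) (S : Finset (Fin n))
    (h : ∀ i ∈ S, ∀ j ∈ Sᶜ, c i j ≤ x) : cut c S ≤ x * (S.card * (n - S.card)) := by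
  refine (sum_le_sum fun i hi => sum_le_sum fun j hj => h i hi j hj).trans_eq ?_
  simp only [sum_const, nsmul_eq_mul, card_compl, Fintype.card_fin]
  rw [Nat.cast_sub (by simpa using S.card_le_univ)]
  ring

theorem exists_thr (I : Inst) {J : ℕ} {C : ℝ} (C0 : 0 ≤ C) (CJ : C < J) :
    ∃ t ∈ thr (J * I.n ^ 2) (mat I), ∃ τ, Rep t τ ∧ I.phi ≤ τ ∧
      ∀ S, Proper S → ratio (rc I) S < C * τ → ratio (rc I) S ≤ C * (1 + 1 / J) * I.phi := by
  have J0 : (0 : ℝ) < J := C0.trans_lt CJ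
  have n0 : (0 : ℝ) < I.n := by exact_mod_cast (by have := I.two_le; omega : 0 < I.n)
  have D0 : (0 : ℝ) < (J * I.n ^ 2 : ℕ) := by push_cast; positivity
  have hc : IsCap (rc I) := I.isCap
  have sq : ∀ S : Finset (Fin I.n), (S.card : ℝ) * (I.n - S.card) ≤ I.n ^ 2 := fun S => by
    nlinarith [Nat.cast_nonneg (α := ℝ) S.card, sq_nonneg ((I.n : ℝ) - S.card)]
  have mem : ∀ e ∈ (1, 1) :: (mat I).flatten, ∀ x, Rep e x → ∀ k < J * I.n ^ 2,
      ∃ t ∈ thr (J * I.n ^ 2) (mat I), Rep t (x * (k + 1 : ℕ) / (J * I.n ^ 2 : ℕ)) :=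
    fun e he x hx k hk => ⟨_, List.mem_flatMap.2 ⟨e, he, List.mem_map.2
      ⟨k, List.mem_range.2 hk, rfl⟩⟩, by have := hx.1; positivity,
      mul_pos hx.2.1 (by omega), by
        simp only [Nat.cast_mul e.1, Nat.cast_mul e.2, hx.2.2]
        field_simp⟩
  have ent : ∀ i j, 0 < rc I i j → ∃ e ∈ (1, 1) :: (mat I).flatten, Rep e (rc I i j) :=
    fun i j h => ⟨nd (I.cap i j), List.mem_cons_of_mem _ (List.mem_flatten.2
      ⟨_, List.mem_ofFn.2 ⟨i, rfl⟩, List.mem_ofFn.2 ⟨j, rfl⟩⟩), rep_nd (by exact_mod_cast h)⟩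
  have φ0 : 0 ≤ I.phi := P318.ARV.Phi_nonneg I.isCap
  rcases φ0.eq_or_lt with h | h
  · obtain ⟨e, he, x, hx, k⟩ : ∃ e ∈ (1, 1) :: (mat I).flatten, ∃ x, Rep e x ∧
        ∀ i j, 0 < rc I i j → x ≤ rc I i j := by
      rcases (univ.filter fun p : Fin I.n × Fin I.n => 0 < rc I p.1 p.2).eq_empty_or_nonempty
        with r | r
      · exact ⟨(1, 1), List.mem_cons_self, 1, ⟨one_pos, one_pos, by simp⟩, fun i j k =>
          absurd k (filter_eq_empty_iff.1 r (mem_univ (i, j)))⟩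
      · obtain ⟨p, p1, p2⟩ := exists_min_image _ (fun p => rc I p.1 p.2) r
        obtain ⟨e, he, hx⟩ := ent _ _ (mem_filter.1 p1).2
        exact ⟨e, he, _, hx, fun i j k => p2 (i, j) (mem_filter.2 ⟨mem_univ _, k⟩)⟩
    obtain ⟨t, t1, t2⟩ := mem e he x hx 0 (by exact_mod_cast D0)
    refine ⟨t, t1, _, t2, h ▸ t2.1.le, fun S s1 s2 => ?_⟩
    rw [← h, mul_zero, ratio_le s1, zero_mul]
    refine sum_nonpos fun i hi => sum_nonpos fun j hj => not_lt.1 fun r => s2.not_ge ?_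
    have x0 := hx.1
    refine (le_div_iff₀ (P318B.Gd.card_pos_cut s1.1 s1.2)).2 (le_trans ?_
      ((k i j r).trans (le_cut hc hi hj)))
    calc _ ≤ J * (x * (0 + 1 : ℕ) / (J * I.n ^ 2 : ℕ)) * (I.n : ℝ) ^ 2 :=
          mul_le_mul (by gcongr) (sq S) (P318B.Gd.card_pos_cut s1.1 s1.2).le (by positivity)
      _ = x := by push_cast; field_simp
  · obtain ⟨S, s0, s1, e⟩ := P318B.Uw.exists_opt I
    have d0 := P318B.Gd.card_pos_cut s0 s1
    have e' : cut (rc I) S = I.phi * (S.card * (I.n - S.card)) := ((eq_div_iff d0.ne').1 e).symm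
    obtain ⟨p, p1, p2⟩ := exists_max_image (S ×ˢ Sᶜ) (fun p => rc I p.1 p.2) (s0.product
      (nonempty_iff_ne_empty.2 fun r => s1 ((compl_eq_empty_iff S).1 r)))
    have a1 : I.phi ≤ rc I p.1 p.2 := by
      have := cut_le (rc I) (rc I p.1 p.2) S fun i hi j hj => p2 (i, j) (mem_product.2 ⟨hi, hj⟩)
      exact le_of_mul_le_mul_right (e' ▸ this) d0
    have a2 : rc I p.1 p.2 ≤ I.phi * I.n ^ 2 := ((le_cut hc (mem_product.1 p1).1
      (mem_product.1 p1).2).trans_eq e').trans (mul_le_mul_of_nonneg_left (sq S) h.le)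
    obtain ⟨e, he, hx⟩ := ent _ _ (h.trans_le a1)
    generalize rc I p.1 p.2 = x at *
    have x0 := hx.1
    obtain ⟨k, hk⟩ : ∃ k, ⌈I.phi * (J * I.n ^ 2 : ℕ) / x⌉₊ = k + 1 :=
      Nat.exists_eq_succ_of_ne_zero (Nat.ceil_pos.2 (by positivity)).ne'
    obtain ⟨t, t1, t2⟩ := mem e he x hx k (Nat.lt_iff_add_one_le.2 (hk ▸ Nat.ceil_le.2
      ((div_le_iff₀' x0).2 (by gcongr))))
    rw [← hk] at t2
    refine ⟨t, t1, _, t2, ?_, fun T _ r => r.le.trans ?_⟩
    · rw [le_div_iff₀ D0, ← div_le_iff₀' x0]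
      exact Nat.le_ceil _
    · rw [mul_assoc]
      refine mul_le_mul_of_nonneg_left ((div_le_iff₀ D0).2 ?_) C0
      refine (mul_le_mul_of_nonneg_left (Nat.ceil_lt_add_one (by positivity)).le x0.le).trans ?_
      calc _ = I.phi * (J * I.n ^ 2 : ℕ) + x := by field_simp
        _ ≤ I.phi * (J * I.n ^ 2 : ℕ) + I.phi * I.n ^ 2 := by gcongr
        _ = _ := by push_cast; field_simp

theorem PT_alg (J : ℕ) {A : List Bool → List Bool} (hA : PolyTime A) :
    PT ∅ fun M : List (List (ℕ × ℕ)) => best M ((thr (J * M.length ^ 2) M).map fun t =>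
      bk M.length ((J * M.length) ^ 3) (A (enc (out J M.length t M)))) := by
  have h2 : PT ∅ fun x : Raw => Raw.mk (A x.w) := ⟨_, P325.polyTime_iff.1 hA, fun _ => rfl⟩
  have n1 : PT ∅ fun M : List (List (ℕ × ℕ)) => M.length := PT.length PT.id
  have n2 : PBd fun M : List (List (ℕ × ℕ)) => M.length := PBd.length (A := ∅) PT.id
  have D1 := (PT.const J).mul (n1.powConst 2)
  have q1 := ((PT.const J).mul n1).powConst 3
  have hb : ∀ {α : Type} [Enc α] {s : α → List Bool} {i : α → ℕ}, PT ∅ s → PT ∅ i →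
      PT ∅ fun a => bt (s a) (i a) := fun hs hi =>
    PT.cond (PT.getD hs hi (PT.const false)) (PT.const 1) (PT.const 0)
  have hd : PT ∅ dn :=
    P318B.Ax.PT_crd.mul ((PT.length PT.id).sub P318B.Ax.PT_crd)
  have h3 : PT ∅ fun M : List (List (ℕ × ℕ)) => thr (J * M.length ^ 2) M :=
    PT.flatMap (PT.cons (PT.const _) (PT.flatten PT.id)) (PT.map
      ((PT.range D1 ((PBd.const J).mul (n2.pow 2))).comp PT.fst')
      ((PT.fst'.snd.fst.mul (PT.snd'.add (PT.const 1))).pair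
        (PT.fst'.snd.snd.mul (D1.comp PT.fst'.fst))))
  have h4 : PT ∅ fun p : List (List (ℕ × ℕ)) × List Bool =>
      bk p.1.length ((J * p.1.length) ^ 3) p.2 := by
    refine PT.map ((PT.range n1 n2).comp PT.fst') (PT.lt (q1.comp PT.fst'.fst) (PT.sum (PT.map
      ((PT.range q1 (((PBd.const J).mul n2).pow 3)).comp PT.fst'.fst) ?_)))
    have q := q1.comp (PT.fst'.fst.fst :
      PT ∅ fun p : ((List (List (ℕ × ℕ)) × List Bool) × ℕ) × ℕ => p.1.1.1)
    have x := ((PT.fst'.snd.mul q).add PT.snd').mul q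
    exact (hb PT.fst'.fst.snd ((x.add (PT.const 0)).mul (PT.const 2))).add (hb PT.fst'.fst.snd
      (((x.add (q.sub (PT.const 1))).mul (PT.const 2)).add (PT.const 1)))
  have h5 : PT ∅ fun p : List (List (ℕ × ℕ)) × List (List Bool) => best p.1 p.2 :=
    PT.optGetD (PT.find? PT.snd' (PT.and ((PT.const 0).lt (hd.comp PT.snd')) (PT.all PT.fst'.snd
      (PT.le ((P318B.Ax.PT_cutN.comp (PT.fst'.fst.fst.pair PT.fst'.snd)).mul (hd.comp PT.snd'))
        ((P318B.Ax.PT_cutN.comp (PT.fst'.fst.fst.pair PT.snd')).mul (hd.comp PT.fst'.snd))))))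
      (PT.const [])
  exact h5.comp (PT.id.pair (PT.map h3 (h4.comp (PT.fst'.pair (PT.listOfRaw (h2.comp
    (P325.PT_raw ((PT_out J).comp (PT.snd'.pair PT.fst')))))))))

theorem apx_cubic {C C' : ℝ} (C1 : 1 ≤ C) (hC : C < C') (h : Apx IsCubic Proper ratio C) :
    Apx IsCap Proper ratio C' := by
  obtain ⟨A, hA, ha⟩ := h
  obtain ⟨B, B1, B2⟩ := exists_between hC
  obtain ⟨J, hJ⟩ := exists_nat_gt (max B (max ((B + 1) / (B - C)) (B / (C' - B))))
  simp only [max_lt_iff] at hJ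
  obtain ⟨J1, J2, J4⟩ := hJ
  rw [div_lt_iff₀ (by linarith)] at J2 J4
  have J3 : (0 : ℝ) < J := by linarith
  have J0 : 0 < J := by exact_mod_cast J3
  obtain ⟨g, hg, hg'⟩ := PT.rawOfList (PT_alg J hA)
  refine ⟨g, P325.polyTime_iff.2 hg, fun n hn c hc => ?_⟩
  obtain ⟨I, rfl, rfl⟩ : ∃ I : Inst, I.n = n ∧ HEq I.cap c := ⟨⟨n, hn, c, hc⟩, rfl, HEq.rfl⟩
  choose T a1 a2 a3 using fun t => ha _ (wI J0 t I).two_le (wI J0 t I).cap
    (by change IsCubic (rc _); rw [rc_wI]; exact (ok_wM J0 t I).cubic)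
  obtain ⟨t, t1, τ, t2, t3, t4⟩ := exists_thr I (C := B) (by linarith) J1
  obtain ⟨S1, s0, s1, e⟩ := P318B.Uw.exists_opt I
  obtain ⟨T1, -, b1, b2⟩ := wI_yes J0 t2 I ⟨s0, s1⟩ (e.symm.trans_le t3)
  have b3 : cut (rc I) (back I.n ((J * I.n) ^ 3) (T t)) < B * τ *
      ((back I.n ((J * I.n) ^ 3) (T t)).card * (I.n - (back I.n ((J * I.n) ^ 3) (T t)).card)) := by
    refine not_le.1 fun k => (wI_no t2 I (by linarith) J1 J2 (a2 t) rfl k).not_ge ?_
    have := a3 t T1 b1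
    change ratio (rc _) _ ≤ C * ratio (rc _) _ at this
    rw [rc_wI] at this
    exact this.trans (mul_le_mul_of_nonneg_left b2 (by linarith))
  have b4 : Proper (back I.n ((J * I.n) ^ 3) (T t)) :=
    ⟨nonempty_iff_ne_empty.2 fun k => by simp [k, cut] at b3, fun k => by simp [k, cut] at b3⟩
  have b5 := t4 _ b4 ((div_lt_iff₀ (P318B.Gd.card_pos_cut b4.1 b4.2)).2 b3)
  obtain ⟨S, c1, c2, c3⟩ := best_spec I
    (List.mem_map_of_mem (f := fun t => back I.n ((J * I.n) ^ 3) (T t)) t1) b4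
  refine ⟨S, ?_, c2, fun T' hT => (c3.trans b5).trans (mul_le_mul ?_
    (P318B.Ax.phi_le I hT.1 hT.2) (P318.ARV.Phi_nonneg I.isCap) (by linarith))⟩
  · have e : (mat I).length = I.n := by simp [mat]
    rw [code_eq, hg']
    refine Eq.trans ?_ c1
    change best _ _ = _
    rw [e, List.map_map]
    refine congrArg (best _) (List.map_congr_left fun t _ => ?_)
    rw [← mat_wI J0, ← code_eq, a1]
    exact bk_wd _ _ _
  · rw [mul_add, mul_one, mul_one_div, ← le_sub_iff_add_le', div_le_iff₀ J3]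
    linarith

end Vale.Agent.N318X
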