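import Vale.Agent.N318X.Red
import Vale.Agent.P318B.All

/-!
Hardness with a bisection on the members of the language.
-/

namespace Vale.Agent.N318X

open Finset Vale.Agent.Lib.PolyTime
open Vale.Agent.P318B (Inst)
open Vale.Agent.P318B.Ax (nd mat)
open Vale.Agent.P318B.Uw (ent)

/-- hardness with both sides of the good cut of linear size -/
def Lin (D Λ : ℕ) (δ : ℝ) : Prop :=
  ∀ L ∈ NP, ∃ I : List Bool → Inst, PT ∅ (fun x : Raw => mat (I x.w)) ∧ ∀ x,
    (x ∈ L → ∃ S : Finset (Fin (I x).n), (I x).n ≤ S.card * Λ ∧ (I x).n ≤ Sᶜ.card * Λ ∧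
      ratio (rc (I x)) S ≤ D) ∧ (x ∉ L → D + δ ≤ (I x).phi)

section gad

open Vale.Agent.P318B.Gd Vale.Agent.Lib.PCP

variable {Q K W : Type} [DecidableEq Q] [Fintype K] [Fintype W] [DecidableEq W]

theorem lin_yes {lam del : ℝ} {l : List (Rnd Q K W)} (h : (QCSP Q K W lam del).yes l)
    {q : Cst} (hq : q.Ok (Fintype.card W) (Fintype.card K)) (hw : 2 ≤ Fintype.card W)
    (c0 : W) (r0 : Rnd Q K W) : ∃ S : Finset (Fin (toInst q c0 r0 l h.1.1).n),
      (toInst q c0 r0 l h.1.1).n ≤ S.card * Fintype.card (Lam K W) ∧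
      (toInst q c0 r0 l h.1.1).n ≤ Sᶜ.card * Fintype.card (Lam K W) ∧
      ratio (rc (toInst q c0 r0 l h.1.1)) S ≤ q.D := by
  obtain ⟨F, hF⟩ := h.2
  obtain ⟨x, hx, e⟩ := (good_of_ok h.1 c0 r0).yes hq hw
    ((q.D + 1) * (l.length * Fintype.card (Lam K W)) ^ 2) F fun j => hF _ (List.getElem_mem _)
  have key : ∀ (β : Bool) (T : Finset (Fin (l.length * Fintype.card (Lam K W)))),
      (∀ i, x (vtx l.length i) = β → i ∈ T) →
      l.length * Fintype.card (Lam K W) ≤ T.card * Fintype.card (Lam K W) := fun β T hT => by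
    refine Nat.mul_le_mul_right _ ((card_fin _).symm.trans_le (card_le_card_of_injOn
      (fun j => (vtx l.length).symm (j, .inr (.inl β))) (fun j _ => hT _ (by simp [hx]))
      fun j _ j' _ k => by simpa using k))
  have hS : ∀ i, i ∈ ({i | x (vtx l.length i) = true} : Finset _) ↔
      x (vtx l.length i) = true := by simp
  obtain ⟨e1, -⟩ := cut_equiv (vtx l.length) (cap_eq q c0 r0 l h.1.1) hS
  refine ⟨_, key true _ fun i => (hS i).2, key false _ fun i k =>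
    mem_compl.2 fun m => Bool.noConfusion (k.symm.trans ((hS i).1 m)), e1.trans_le ?_⟩
  rw [e, mul_div_assoc]
  exact mul_le_of_le_one_right (Nat.cast_nonneg _) (div_self_le_one _)

theorem lin_of [Enc Q] [EncInj Q] {lam del : ℝ} (hw : 2 ≤ Fintype.card W)
    (hl : lam ≤ lam0 (Fintype.card W)) (hd : 0 < del) (h : Lib.PCP.Hard (QCSP Q K W lam del)) :
    ∃ (D Λ : ℕ) (δ : ℝ), 0 < D ∧ 0 < Λ ∧ 0 < δ ∧ Lin D Λ δ := by
  obtain ⟨q, hq, hD, hnu⟩ := exists_cst hw (Fintype.card K)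
  obtain ⟨c0⟩ : Nonempty W := Fintype.card_pos_iff.1 (by omega)
  obtain ⟨r0⟩ : Nonempty (Rnd Q K W) := by
    obtain ⟨f, -, f1, -⟩ := h
    obtain ⟨r, -⟩ := List.exists_mem_of_ne_nil _ (f1 [] ⟨fun _ => true, by simp⟩).1.1
    exact ⟨r⟩
  have hΛ : 0 < Fintype.card (Lam K W) := lt_of_lt_of_le two_pos two_le_lam
  refine ⟨q.D, Fintype.card (Lam K W), min del 1 / Fintype.card (Lam K W) ^ 2, hD, hΛ,
    by positivity, fun L hL => ?_⟩
  obtain ⟨f, hf, f1, f2⟩ := (P325.cookLevin L (NP_eq ▸ hL)).trans h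
  have h0 : ∀ x : List Bool, f ⟨x⟩ ≠ [] := fun x => by
    by_cases hx : x ∈ L
    · exact (f1 ⟨x⟩ hx).1.1
    · exact (f2 ⟨x⟩ hx).1.1
  refine ⟨fun x => toInst q c0 r0 (f ⟨x⟩) (h0 x), ?_, fun x =>
    ⟨fun hx => lin_yes (f1 ⟨x⟩ hx) hq hw c0 r0,
      fun hx => phi_no (f2 ⟨x⟩ hx) hq hw (hnu lam hl) hd c0 r0⟩⟩
  obtain ⟨g, hg, hg'⟩ := (pt_mat (fun k c => (PT.fst'.funAt k).funAt c)
    (fun k a => (PT.snd'.funAt k).funAt a) q c0 r0).comp hf
  exact ⟨g, hg, fun x => by rw [hg', P318B.Ax.enc_mat, code_toInst]⟩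

end gad

theorem lin : ∃ (D Λ : ℕ) (δ : ℝ), 0 < D ∧ 0 < Λ ∧ 0 < δ ∧ Lin D Λ δ := by
  classical
  have : EncInj Raw := ⟨fun a b h => by cases a; cases b; exact congrArg Raw.mk h⟩
  obtain ⟨lam, del, a1, a2, a3⟩ := P318B.Rd.hard_of P318B.complete P318B.Sd.sound_proof
    (P318B.find_of P318B.seedS P318B.Fm.famS) P318B.Pg.progS P318B.Rd.unifS
  exact lin_of (by simp) a1 a2 a3

/-- doubling the number of vertices -/
def pad (I : Inst) {γ : ℚ} (hγ : 0 ≤ γ) : Inst where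
  n := I.n + I.n
  two_le := I.two_le.trans (Nat.le_add_right _ _)
  cap i j := if h : i.1 < I.n ∧ j.1 < I.n then I.cap ⟨i, h.1⟩ ⟨j, h.2⟩ else if i = j then 0 else γ
  isCap := by
    refine ⟨fun i j => ?_, fun i j => ?_, fun i => ?_⟩ <;> beta_reduce
    · by_cases k : i.1 < I.n ∧ j.1 < I.n
      · rw [dif_pos k, dif_pos k.symm]; exact I.isCap.1 _ _
      · rw [dif_neg k, dif_neg fun k' => k k'.symm]; simp only [eq_comm]
    · split_ifs
      exacts [I.isCap.2.1 _ _, by simp, by exact_mod_cast hγ]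
    · split_ifs
      exacts [I.isCap.2.2 _, by simp, by contradiction]

theorem cut_sub {n : ℕ} (c : Fin n → Fin n → ℝ) (γ : ℝ) (S : Finset (Fin n)) :
    cut c S - γ * (S.card * (n - S.card)) =
      ∑ i, ∑ j, if i ∈ S ∧ j ∉ S then c i j - γ else 0 := by
  have : γ * (S.card * (n - S.card)) = ∑ _i ∈ S, ∑ _j ∈ Sᶜ, γ := by
    simp only [sum_const, nsmul_eq_mul, card_compl, Fintype.card_fin]
    rw [Nat.cast_sub (by simpa using S.card_le_univ)]
    ring
  rw [this, cut, ← sum_sub_distrib, ← sum_subset (subset_univ S) fun i _ hi => by simp [hi]]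
  refine sum_congr rfl fun i hi => ?_
  rw [← sum_sub_distrib, ← sum_subset (subset_univ Sᶜ) fun j _ hj => by
    simp [not_not.1 (mt mem_compl.2 hj)]]
  exact sum_congr rfl fun j hj => by simp [hi, mem_compl.1 hj]

theorem cut_pad (I : Inst) {γ : ℚ} (hγ : 0 ≤ γ) (T : Finset (Fin (I.n + I.n)))
    (S : Finset (Fin I.n)) (h : ∀ u, u ∈ S ↔ Fin.castAdd I.n u ∈ T) :
    cut (n := I.n + I.n) (rc (pad I hγ)) T - γ * (T.card * ((I.n + I.n : ℕ) - T.card)) =
      cut (rc I) S - γ * (S.card * (I.n - S.card)) := by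
  have z : ∀ i j : Fin (I.n + I.n), ¬(i.1 < I.n ∧ j.1 < I.n) →
      (if i ∈ T ∧ j ∉ T then rc (pad I hγ) i j - γ else 0) = 0 := fun i j k => by
    split_ifs with k'
    · have : i ≠ j := fun e => k'.2 (e ▸ k'.1)
      simp [rc, pad, k, this]
    · rfl
  refine (cut_sub (n := I.n + I.n) _ _ T).trans ?_
  rw [cut_sub, Fin.sum_univ_add, sum_eq_zero (f := fun i => ∑ j, if Fin.natAdd I.n i ∈ T ∧ j ∉ T
    then rc (pad I hγ) (Fin.natAdd I.n i) j - γ else 0) fun i _ => sum_eq_zero fun j _ =>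
      z _ _ (by simp), add_zero]
  refine sum_congr rfl fun u _ => ?_
  rw [Fin.sum_univ_add, sum_eq_zero (f := fun j => if Fin.castAdd I.n u ∈ T ∧ Fin.natAdd I.n j ∉ T
    then rc (pad I hγ) (Fin.castAdd I.n u) (Fin.natAdd I.n j) - γ else 0) fun j _ =>
      z _ _ (by simp), add_zero]
  refine sum_congr rfl fun v _ => ?_
  simp [h, rc, pad]

theorem half_proper {n : ℕ} (S : Finset (Fin n)) (hn : 2 ≤ n) (h : Half S) : Proper S := by
  rw [Half] at h
  rw [proper_iff]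
  omega

theorem hard_half : ∃ C : ℝ, 1 < C ∧ HardI IsCap Half C := by
  obtain ⟨D, Λ, δ, D0, Λ0, δ0, h⟩ := lin
  obtain ⟨γ, g1, g2⟩ := exists_rat_btwn (lt_add_of_pos_right (D : ℝ) δ0)
  have D1 : (0 : ℝ) < D := by exact_mod_cast D0
  have Λ1 : (1 : ℝ) ≤ (Λ : ℝ) ^ 2 := one_le_pow₀ (by exact_mod_cast Λ0)
  have hγ : 0 ≤ γ := by exact_mod_cast (D1.trans g1).le
  have a0 : (0 : ℝ) < (γ - D) / Λ ^ 2 := div_pos (by linarith) (by linarith)
  have a1 : (γ - D : ℝ) / Λ ^ 2 ≤ γ - D := div_le_self (by linarith) Λ1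
  have eτ : ((γ - (γ - D) / Λ ^ 2 : ℚ) : ℝ) = γ - (γ - D) / Λ ^ 2 := by push_cast; rfl
  have τ0 : (0 : ℝ) < γ - (γ - D) / Λ ^ 2 := by linarith
  obtain ⟨C, C1, C2⟩ := exists_between ((one_lt_div τ0).2 (by linarith : _ < (γ : ℝ)))
  refine ⟨C, C1, fun L hL => ?_⟩
  obtain ⟨I, hp, h⟩ := h L hL
  refine ⟨fun x => pad (I x) hγ, fun _ => γ - (γ - D) / Λ ^ 2, PT.pair (PT.const _) ?_, fun x =>
    ⟨(pad (I x) hγ).isCap, by exact_mod_cast τ0, fun hx => ?_, fun hx => ?_⟩⟩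
  · have n1 := PT.length hp
    have n2 := PBd.length (A := ∅) hp
    have n3 := n1.comp (PT.fst'.fst : PT ∅ fun p : (Raw × ℕ) × ℕ => p.1.1)
    refine (PT_tab (f := fun x i j => if i < (mat (I x.w)).length ∧ j < (mat (I x.w)).length then
      ent (mat (I x.w)) i j else if i = j then (0, 1) else nd γ) (n1.add n1) (n2.add n2)
      (PT.ite (PT.decide_and (PT.fst'.snd.lt n3) (PT.snd'.lt n3))
        (PT_ent (hp.comp PT.fst'.fst) PT.fst'.snd PT.snd')
        (PT.ite (PT.fst'.snd.eqNat PT.snd') (PT.const _) (PT.const _)))).congr fun x => ?_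
    have e : (mat (I x.w)).length = (I x.w).n := by simp [mat]
    rw [e]
    refine (mat_eq (pad (I x.w) hγ) fun i j : Fin ((I x.w).n + (I x.w).n) => ?_).symm
    change nd (if h : _ then _ else if i = j then 0 else γ) = _
    simp only [Fin.ext_iff]
    split_ifs with k
    exacts [(P318B.Uw.ent_mat _ ⟨i, k.1⟩ ⟨j, k.2⟩).symm, rfl, rfl]
  · obtain ⟨S, s1, s2, s3⟩ := (h x).1 hx
    have n2 := (I x).two_le
    have c1 : S.card + Sᶜ.card = (I x).n := by simp
    have p : Proper S := proper_iff.2 ⟨Nat.pos_of_mul_pos_right (by omega : 0 < S.card * Λ), by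
      have := Nat.pos_of_mul_pos_right (by omega : 0 < Sᶜ.card * Λ)
      omega⟩
    let T := (S.disjSum Sᶜ).map (finSumFinEquiv (m := (I x).n) (n := (I x).n)).toEmbedding
    have c2 : T.card = (I x).n := by rw [card_map, card_disjSum, c1]
    have t1 : Half T := by rw [Half, c2, two_mul]
    refine ⟨T, t1, (ratio_le (half_proper T (by omega) t1)).2 ?_⟩
    have k := cut_pad (I x) hγ T S fun u => by simp [T]
    rw [ratio_le p] at s3
    have c3 : ((I x).n : ℝ) - S.card = Sᶜ.card :=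
      sub_eq_of_eq_add' (by exact_mod_cast c1.symm)
    have s4 : ((I x).n : ℝ) * (I x).n ≤ S.card * Λ * (Sᶜ.card * Λ) := by
      exact_mod_cast Nat.mul_le_mul s1 s2
    have s5 : (γ - D) / Λ ^ 2 * (((I x).n : ℝ) * (I x).n) ≤ (γ - D) * (S.card * Sᶜ.card) :=
      (mul_le_mul_of_nonneg_left s4 a0.le).trans_eq (by field_simp)
    rw [c3] at k s3
    rw [eτ]
    change _ ≤ _ * (_ * ((((I x).n + (I x).n : ℕ) : ℝ) - _))
    rw [c2] at k ⊢
    push_cast at k ⊢
    linarith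
  · rw [eτ]
    refine ((lt_div_iff₀ τ0).1 C2).trans_le (P318B.Gd.le_phi (pad (I x) hγ).two_le _
      fun (T : Finset (Fin ((I x).n + (I x).n))) t0 t1 =>
        (le_div_iff₀ (P318B.Gd.card_pos_cut t0 t1)).2 ?_)
    have k := cut_pad (I x) hγ T (univ.filter fun u => Fin.castAdd _ u ∈ T) fun u => by simp
    generalize univ.filter (fun u => Fin.castAdd (I x).n u ∈ T) = S at k
    have : γ * (S.card * (((I x).n : ℝ) - S.card)) ≤ cut (rc (I x)) S := by
      rcases S.eq_empty_or_nonempty with rfl | s0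
      · simp [cut]
      by_cases s1 : S = univ
      · simp [s1, cut]
      exact (le_div_iff₀ (P318B.Gd.card_pos_cut s0 s1)).1
        ((g2.le.trans ((h x).2 hx)).trans (P318B.Ax.phi_le _ s0 s1))
    exact sub_nonneg.1 (k.symm ▸ sub_nonneg.2 this)

end Vale.Agent.N318X
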