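import Vale.Agent.N318X.Alg
import Vale.Agent.N318X.Bal

/-!
Hardness of approximation on cubic bipartite graphs.
-/

namespace Vale.Agent.N318X

open Finset
open Vale.Agent.P318B (Inst)

theorem HardI.mono {K : ∀ {n : ℕ}, (Fin n → Fin n → ℝ) → Prop}
    {Y : ∀ {n : ℕ}, Finset (Fin n) → Prop} {C C' : ℝ} (h : HardI K Y C) (hC : C' ≤ C) :
    HardI K Y C' := fun L hL => by
  obtain ⟨I, τ, hp, h⟩ := h L hL
  refine ⟨I, τ, hp, fun x => ⟨(h x).1, (h x).2.1, (h x).2.2.1, fun hx =>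
    lt_of_le_of_lt ?_ ((h x).2.2.2 hx)⟩⟩
  exact mul_le_mul_of_nonneg_right hC (by exact_mod_cast (h x).2.1.le)

theorem hard_cubic {C C' : ℝ} (C1 : 1 ≤ C) (hC : C' < C) (h : Hard IsCap Proper C) :
    Hard IsCubic Proper C' :=
  (h.hardI.cubic C1 hC (fun _ _ k => k) fun _ _ _ _ k _ => k).hard

theorem cut_nonneg {n : ℕ} {c : Fin n → Fin n → ℝ} (hc : IsCap c) (S : Finset (Fin n)) :
    0 ≤ cut c S := sum_nonneg fun _ _ => sum_nonneg fun _ _ => hc.2.1 _ _

theorem apx_hard : ∃ C : ℝ, 1 < C ∧ Hard IsCubic Half C ∧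
    (Apx IsCap Proper ratio C ∨ Apx IsCubic Proper ratio C ∨ Apx IsCubic Half cut C ∨
      Apx IsCubic Small expan C → NP ⊆ P) := by
  obtain ⟨C, C1, h⟩ := hard_half
  obtain ⟨c, c1, c2⟩ := exists_rat_btwn C1
  have c0 : (0 : ℝ) ≤ c := by linarith
  have hc : (0 : ℚ) ≤ c := by exact_mod_cast c0
  have k := h.cubic C1.le c2 half_proper fun S T e1 e2 _ s => by
    rw [Half] at s ⊢
    rw [e2, e1, mul_left_comm, s]
  refine ⟨c, c1, k.hard, ?_⟩
  rintro (⟨A, hA, ha⟩ | ⟨A, hA, ha⟩ | ⟨A, hA, ha⟩ | ⟨A, hA, ha⟩) <;>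
    refine np_of hc k hA fun I hI => ?_
  · obtain ⟨S, s1, s2, s3⟩ := ha _ I.two_le I.cap hI.1
    exact ⟨S, s1, s2, fun T t => s3 T (half_proper T I.two_le t)⟩
  · obtain ⟨S, s1, s2, s3⟩ := ha _ I.two_le I.cap hI
    exact ⟨S, s1, s2, fun T t => s3 T (half_proper T I.two_le t)⟩
  · obtain ⟨S, s1, s2, s3⟩ := ha _ I.two_le I.cap hI
    have p := half_proper S I.two_le s2
    refine ⟨S, s1, p, fun T t => ?_⟩
    have e : T.card = S.card := by have : 2 * S.card = I.n := s2; have : 2 * T.card = I.n := t; omega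
    rw [ratio, ratio, e, ← mul_div_assoc]
    exact div_le_div_of_nonneg_right (s3 T t) (P318B.Gd.card_pos_cut p.1 p.2).le
  · obtain ⟨S, s1, s2, s3⟩ := ha _ I.two_le I.cap hI
    have n2 := I.two_le
    have a : 2 * S.card ≤ I.n := s2.2
    refine ⟨S, s1, proper_iff.2 ⟨s2.1.card_pos, by omega⟩, fun T t => ?_⟩
    have b : 2 * T.card = I.n := t
    have b1 : (T.card : ℝ) < I.n := by exact_mod_cast (by omega : T.card < I.n)
    have b2 : (S.card : ℝ) ≤ T.card := by exact_mod_cast (by omega : S.card ≤ T.card)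
    rw [ratio, ratio, ← div_div, ← div_div, ← mul_div_assoc]
    exact div_le_div₀ (mul_nonneg c0 (div_nonneg (cut_nonneg hI.1 T) (Nat.cast_nonneg _)))
      (s3 T ⟨card_pos.1 (by omega), b.le⟩) (by linarith) (by linarith)

end Vale.Agent.N318X
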