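import Mathlib.Computability.TuringMachine.Computable
import Mathlib.Analysis.InnerProductSpace.PiL2
import Mathlib.Analysis.SpecialFunctions.Pow.Real

/-!
Definitions for uniform sparsest cut: instances, cuts, hardness, approximation algorithms and the
Goemans-Linial integrality gap.
-/

namespace Vale.Agent.N318X

open Finset

/-- Computable in polynomial time by a multi-stack Turing machine with finite alphabets. -/
def PolyTime (f : List Bool → List Bool) : Prop :=
  ∃ M : Turing.TM2ComputableInPolyTime (fun w : List Bool => w) (fun w : List Bool => w) f,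
    ∀ k, Finite (M.tm.Γ k)

/-- The word `x` in self-delimiting form, followed by the word `y`. -/
def pair : List Bool → List Bool → List Bool
  | [], y => false :: y
  | b :: x, y => true :: b :: pair x y

/-- A list of words, each in self-delimiting form. -/
def codeList : List (List Bool) → List Bool
  | [] => []
  | x :: l => pair x (codeList l)

/-- The class NP. -/
def NP : Set (Set (List Bool)) :=
  {L | ∃ (V : List Bool → List Bool) (p : Polynomial ℕ), PolyTime V ∧
    ∀ x, x ∈ L ↔ ∃ w : List Bool, w.length ≤ p.eval x.length ∧ V (pair x w) = [true]}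

/-- The class P. -/
def P : Set (Set (List Bool)) := {L | ∃ f, PolyTime f ∧ ∀ x, x ∈ L ↔ f x = [true]}

/-- A nonnegative rational number: numerator and denominator in binary. -/
def codeQ (q : ℚ) : List Bool := pair q.num.natAbs.bits q.den.bits

variable {n : ℕ}

/-- A rational matrix, row by row. -/
def code (c : Fin n → Fin n → ℚ) : List Bool :=
  codeList (List.ofFn fun i => codeList (List.ofFn fun j => codeQ (c i j)))

/-- Symmetric nonnegative capacities with zero diagonal. -/
def IsCap (c : Fin n → Fin n → ℝ) : Prop :=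
  (∀ i j, c i j = c j i) ∧ (∀ i j, 0 ≤ c i j) ∧ ∀ i, c i i = 0

/-- The adjacency matrix of a three-regular bipartite simple graph. -/
def IsCubic (c : Fin n → Fin n → ℝ) : Prop :=
  IsCap c ∧ (∀ i j, c i j = 0 ∨ c i j = 1) ∧ (∀ i, ∑ j, c i j = 3) ∧
    ∃ X : Set (Fin n), ∀ i j, c i j = 1 → (i ∈ X ↔ j ∉ X)

/-- The capacity of a cut. -/
def cut (c : Fin n → Fin n → ℝ) (S : Finset (Fin n)) : ℝ := ∑ i ∈ S, ∑ j ∈ Sᶜ, c i j

/-- The objective of uniform sparsest cut. -/
noncomputable def ratio (c : Fin n → Fin n → ℝ) (S : Finset (Fin n)) : ℝ :=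
  cut c S / (S.card * (n - S.card))

/-- The objective of edge expansion. -/
noncomputable def expan (c : Fin n → Fin n → ℝ) (S : Finset (Fin n)) : ℝ := cut c S / S.card

/-- Nonempty proper subsets. -/
def Proper (S : Finset (Fin n)) : Prop := S.Nonempty ∧ S ≠ univ

/-- Bisections. -/
def Half (S : Finset (Fin n)) : Prop := 2 * S.card = n

/-- Nonempty sets with at most half of the vertices. -/
def Small (S : Finset (Fin n)) : Prop := S.Nonempty ∧ 2 * S.card ≤ n

/-- Every language in NP has a polynomial time map to pairs (threshold `τ > 0`, instance in `K`):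
on members some set in `Y` has ratio at most `τ`, on non-members every nonempty proper set has
ratio above `C τ`. -/
def Hard (K : ∀ {n : ℕ}, (Fin n → Fin n → ℝ) → Prop) (Y : ∀ {n : ℕ}, Finset (Fin n) → Prop)
    (C : ℝ) : Prop :=
  ∀ L ∈ NP, ∃ (n : List Bool → ℕ) (c : ∀ x, Fin (n x) → Fin (n x) → ℚ) (τ : List Bool → ℚ),
    PolyTime (fun x => pair (codeQ (τ x)) (code (c x))) ∧
    ∀ x, 2 ≤ n x ∧ K (fun i j => (c x i j : ℝ)) ∧ 0 < τ x ∧
      (x ∈ L → ∃ S, Y S ∧ ratio (fun i j => (c x i j : ℝ)) S ≤ τ x) ∧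
      (x ∉ L → ∀ S, Proper S → C * τ x < ratio (fun i j => (c x i j : ℝ)) S)

/-- There is a polynomial time factor `C` approximation algorithm for minimising `v` over the sets
in `F` on the instances in `K`; it outputs the indicator word of a set. -/
def Apx (K : ∀ {n : ℕ}, (Fin n → Fin n → ℝ) → Prop) (F : ∀ {n : ℕ}, Finset (Fin n) → Prop)
    (v : ∀ {n : ℕ}, (Fin n → Fin n → ℝ) → Finset (Fin n) → ℝ) (C : ℝ) : Prop :=
  ∃ A, PolyTime A ∧ ∀ n, 2 ≤ n → ∀ c : Fin n → Fin n → ℚ, K (fun i j => (c i j : ℝ)) →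
    ∃ S, A (code c) = List.ofFn (fun i => decide (i ∈ S)) ∧ F S ∧
      ∀ T, F T → v (fun i j => (c i j : ℝ)) S ≤ C * v (fun i j => (c i j : ℝ)) T

/-- Negative-type semimetrics. -/
def IsNegType (d : Fin n → Fin n → ℝ) : Prop :=
  (∃ x : Fin n → EuclideanSpace ℝ (Fin n), ∀ i j, d i j = ‖x i - x j‖ ^ 2) ∧
    ∀ i j k, d i k ≤ d i j + d j k

/-- `φ = Φ(c)`. -/
def IsPhi (c : Fin n → Fin n → ℝ) (φ : ℝ) : Prop :=
  IsLeast {r | ∃ S, Proper S ∧ r = ratio c S} φ

/-- `v = GL(c)`. -/
def IsGL (c : Fin n → Fin n → ℝ) (v : ℝ) : Prop :=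
  IsLeast {r | ∃ d, IsNegType d ∧ ∑ i, ∑ j with i < j, d i j = 1 ∧
    r = ∑ i, ∑ j with i < j, c i j * d i j} v

/-- The values `Φ(c) / GL(c)` over the instances in `K` on `n` vertices with `GL(c) > 0`. -/
def gaps (K : ∀ {n : ℕ}, (Fin n → Fin n → ℝ) → Prop) (n : ℕ) : Set ℝ :=
  {r | ∃ (c : Fin n → Fin n → ℝ) (φ v : ℝ), K c ∧ IsPhi c φ ∧ IsGL c v ∧ 0 < v ∧ r = φ / v}

end Vale.Agent.N318X
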