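import Vale.Agent.N318X.Pack
import Vale.Agent.P318B.Unw
import Vale.Agent.P318B.Gad

/-!
The integrality gap is attained, up to a factor near one, on cubic bipartite graphs.
-/

namespace Vale.Agent.N318X

open Finset Vale.Agent.N318

variable {n q W : ℕ} {w : ℕ → ℕ → ℕ}

theorem isPhi (hn : 2 ≤ n) (c : Fin n → Fin n → ℝ) : IsPhi c (P318.Phi c) := by
  refine Set.Nonempty.csInf_mem (s := {r | ∃ S : Finset (Fin n), S.Nonempty ∧ S ≠ univ ∧
    r = P318.cutRatio c S}) ⟨_, {⟨0, by omega⟩}, singleton_nonempty _, fun h => ?_, rfl⟩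
    ((Set.finite_range (P318.cutRatio c)).subset fun r ⟨T, _, _, e⟩ => ⟨T, e.symm⟩) |> fun h =>
      ⟨h.imp fun S k => ⟨⟨k.1, k.2.1⟩, k.2.2⟩, fun r ⟨S, k, e⟩ => e ▸ P318B.Gd.phi_le c k.1 k.2⟩
  have := congrArg card h
  simp at this
  omega

theorem exists_feas (hn : 2 ≤ n) :
    ∃ d : Fin n → Fin n → ℝ, P318.IsNegType d ∧ P318.pairSum d = 1 := by
  obtain ⟨-, d, -, h1, h2, -⟩ := exists_inst hn
  exact ⟨d, h1, h2⟩

theorem isGL (hn : 2 ≤ n) (c : Fin n → Fin n → ℝ) : IsGL c (P318.glValue c) := by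
  let K : Set (Fin n → Fin n → ℝ) := {d | P318.IsNegType d ∧ P318.pairSum d = 1}
  have e : K = (⋂ x, ⋂ y, {d | d x y = d y x}) ∩ (⋂ x, {d | d x x = 0}) ∩
      (⋂ a : Fin n → ℝ, ⋂ _ : ∑ x, a x = 0, {d | ∑ x, ∑ y, a x * a y * d x y ≤ 0}) ∩
      (⋂ i, ⋂ j, ⋂ k, {d | d i k ≤ d i j + d j k}) ∩ {d | P318.pairSum d = 1} := by
    ext d
    simp only [K, Set.mem_inter_iff, Set.mem_iInter, Set.mem_ofPred_eq]
    exact ⟨fun h => ⟨⟨⟨⟨h.1.negKer.1, h.1.negKer.2.1⟩, h.1.negKer.2.2⟩, h.1.2⟩, h.2⟩,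
      fun h => ⟨⟨P318.NegKer.exists_vec ⟨h.1.1.1.1, h.1.1.1.2, h.1.1.2⟩, h.1.2⟩, h.2⟩⟩
  have hK : IsClosed K := by
    rw [e]
    refine ((((isClosed_iInter fun _ => isClosed_iInter fun _ => isClosed_eq ?_ ?_).inter
      (isClosed_iInter fun _ => isClosed_eq ?_ ?_)).inter (isClosed_iInter fun _ =>
        isClosed_iInter fun _ => isClosed_le ?_ ?_)).inter (isClosed_iInter fun _ =>
          isClosed_iInter fun _ => isClosed_iInter fun _ => isClosed_le ?_ ?_)).inter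
            (isClosed_eq ?_ ?_) <;> (try unfold P318.pairSum) <;> fun_prop
  have hc' : IsCompact K := (isCompact_Icc (a := 0) (b := fun _ _ => 2)).of_isClosed_subset hK
    fun d hd => ⟨fun i j => hd.1.negKer.nonneg i j, fun i j => by
      have h1 := hd.2
      rw [P318.pairSum_eq_half hd.1.negKer.symm hd.1.negKer.self] at h1
      have := (single_le_sum (f := d i) (fun _ _ => hd.1.negKer.nonneg _ _) (mem_univ j)).trans
        (single_le_sum (f := fun i => ∑ j, d i j)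
          (fun _ _ => sum_nonneg fun _ _ => hd.1.negKer.nonneg _ _) (mem_univ i))
      change d i j ≤ 2
      linarith⟩
  obtain ⟨d, hd, hm⟩ := hc'.exists_isMinOn (exists_feas hn)
    (f := fun d => P318.pairSum fun i j => c i j * d i j) (by unfold P318.pairSum; fun_prop)
  have : IsGL c (P318.pairSum fun i j => c i j * d i j) :=
    ⟨⟨d, hd.1, hd.2, rfl⟩, fun r ⟨d', h1, h2, e⟩ => e ▸ hm ⟨h1, h2⟩⟩
  have e2 : P318.glValue c = _ := this.csInf_eq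
  rwa [e2]

theorem mem_gaps {K : ∀ {n : ℕ}, (Fin n → Fin n → ℝ) → Prop} (hn : 2 ≤ n) {c : Fin n → Fin n → ℝ}
    (hK : K c) (h0 : 0 < P318.glValue c) :
    P318.Phi c / P318.glValue c ∈ gaps K n := ⟨c, _, _, hK, isPhi hn c, isGL hn c, h0, rfl⟩

theorem gaps_eq (hn : 2 ≤ n) : gaps IsCap n =
    {r | ∃ c : Fin n → Fin n → ℝ,
      P318.IsCap c ∧ 0 < P318.glValue c ∧ r = P318.Phi c / P318.glValue c} := by
  ext r
  refine ⟨?_, fun ⟨c, hc, h0, e⟩ => e ▸ mem_gaps hn hc h0⟩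
  rintro ⟨c, φ, v, hc, h1, h2, h0, rfl⟩
  obtain rfl := h1.unique (isPhi hn c)
  obtain rfl := h2.unique (isGL hn c)
  exact ⟨c, hc, h0, rfl⟩

theorem isLUB_gap (hn : 2 ≤ n) : IsLUB (gaps IsCap n) (P318.gap n) := by
  rw [gaps_eq hn]
  refine isLUB_csSup ?_ ⟨P318.gap n, fun r ⟨c, hc, h0, e⟩ => e ▸ P318.ratio_le_gap hc h0⟩
  by_contra h
  have hg := gap_pos hn
  rw [Set.not_nonempty_iff_eq_empty] at h
  rw [P318.gap, h, Real.sSup_empty] at hg
  exact lt_irrefl _ hg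

theorem Ok.round' (h : Ok n q W w) {c : Fin n → Fin n → ℝ} {ρ B θ : ℝ}
    (hw : ∀ u v : Fin n, w u v = min W ⌊c u v * ρ⌋₊) (hB : B * n ^ 2 ≤ W)
    (B1 : 1 ≤ B) (h0 : 0 ≤ θ) (h1 : θ ≤ 1) (hθ : 2 * B * n ≤ θ * q)
    (T : Finset (Fin (n * q * q * 2)))
    (hP : B * ((back n q T).card * (n - (back n q T).card)) ≤ cut c (back n q T) * ρ) :
    2 * (1 - θ) * (B - 1) / (2 * q ^ 2) ^ 2 * (T.card * ((n * q * q * 2 : ℕ) - T.card)) ≤
      cut (wc n q W w) T := by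
  refine h.no (by linarith) h0 h1 (by nlinarith [Nat.cast_nonneg (α := ℝ) n]) T ?_
  have := P318B.Uw.round_no (ρ := ρ) c hB (by linarith) (back n q T)
  rw [card_compl, Nat.cast_sub (card_le_univ _), Fintype.card_fin] at this
  simpa only [hw, cut] using this hP

theorem phi_cut {c : Fin n → Fin n → ℝ} (hc : IsCap c) (S : Finset (Fin n)) :
    P318.Phi c * (S.card * (n - S.card)) ≤ cut c S := by
  rcases S.eq_empty_or_nonempty with rfl | s0
  · simp [cut]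
  by_cases s1 : S = univ
  · simp [s1, cut]
  exact (le_div_iff₀ (P318B.Gd.card_pos_cut s0 s1)).1 (P318.Phi_le hc s0 s1)

theorem Ok.round (h : Ok n q W w) {c : Fin n → Fin n → ℝ} (hc : IsCap c) {ρ B θ : ℝ}
    (hw : ∀ u v : Fin n, w u v = min W ⌊c u v * ρ⌋₊) (hρ : 0 ≤ ρ) (hB : B * n ^ 2 ≤ W)
    (B1 : 1 ≤ B) (hΦ : B ≤ P318.Phi c * ρ) (h0 : 0 ≤ θ) (h1 : θ ≤ 1) (hθ : 2 * B * n ≤ θ * q) :
    2 * (1 - θ) * (B - 1) / (2 * q ^ 2) ^ 2 ≤ P318.Phi (wc n q W w) := by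
  refine le_phi h.two fun T _ _ => h.round' hw hB B1 h0 h1 hθ T ?_
  refine (mul_le_mul_of_nonneg_right hΦ (mul_nonneg (Nat.cast_nonneg _) (sub_nonneg.2 ?_))).trans ?_
  · exact_mod_cast (by simpa using (back n q T).card_le_univ)
  · rw [mul_right_comm]
    exact mul_le_mul_of_nonneg_right (phi_cut hc _) hρ

theorem rnd_up {c ρ : ℝ} (hc : 0 ≤ c) (hρ : 0 ≤ ρ) : ((min W ⌊c * ρ⌋₊ : ℕ) : ℝ) ≤ c * ρ :=
  (Nat.cast_le.2 (min_le_right _ _)).trans (Nat.floor_le (by positivity))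

theorem gap_cubic {ε : ℝ} (hε : 0 < ε) : ∃ J : ℕ, ∀ n, 2 ≤ n → ∀ q, J * n ^ 3 ≤ q →
    ∃ r ∈ gaps IsCubic (2 * n * q ^ 2), P318.gap n ≤ (1 + ε) * r := by
  obtain ⟨J, hJ⟩ := exists_nat_gt (max 2 (3 * (1 + ε) / ε))
  have J2 : (2 : ℝ) < J := (le_max_left _ _).trans_lt hJ
  have J3 := (div_lt_iff₀ hε).1 ((le_max_right _ _).trans_lt hJ)
  refine ⟨J ^ 2, fun n hn q hq => ?_⟩
  rw [show 2 * n * q ^ 2 = n * q * q * 2 by ring]
  have θ0 : (0 : ℝ) < 1 / J := by positivity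
  have θ1 : (1 : ℝ) / J < 1 := (div_lt_one (by linarith)).2 (by linarith)
  have hg := gap_pos hn
  obtain ⟨_, ⟨c, φ, v, hc, a1, ⟨⟨d, hd, d1, rfl⟩, -⟩, v0, rfl⟩, a2, -⟩ :=
    (isLUB_gap hn).exists_between (show (1 - 1 / J) * P318.gap n < P318.gap n by nlinarith)
  obtain rfl := a1.unique (isPhi hn c)
  have hk := P318.IsNegType.negKer hd
  have d2 := (P318.pairSum_eq_half hk.symm hk.self).symm.trans d1
  have d3 := P318.pairSum_eq_half (f := fun i j => c i j * d i j)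
    (fun i j => by rw [hc.1 i j, hk.symm i j]) fun i => by simp [hk.self]
  rw [P318.pairSum] at d3
  rw [d3] at a2 v0
  rw [lt_div_iff₀ v0] at a2
  have Φ0 : 0 < P318.Phi c := lt_trans (mul_pos (mul_pos (by linarith) hg) v0) a2
  have n2 : (2 : ℝ) ≤ n := by exact_mod_cast hn
  have J0 : 0 < J := by exact_mod_cast (by linarith : (0 : ℝ) < J)
  have hq' : (J : ℝ) ^ 2 * n ^ 3 ≤ q := by exact_mod_cast hq
  let w : ℕ → ℕ → ℕ := fun u v => min (J * n ^ 2) ⌊ext2 c u v * (J / P318.Phi c)⌋₊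
  have hw : ∀ u v : Fin n, w u v = min (J * n ^ 2) ⌊c u v * (J / P318.Phi c)⌋₊ := fun u v => by
    simp only [w, ext2_eq]
  have ok : Ok n q (J * n ^ 2) w := ⟨hn, by positivity, le_trans (by
      rw [show n * (J * n ^ 2) = J * n ^ 3 by ring]
      exact Nat.mul_le_mul_right _ (Nat.le_self_pow two_ne_zero J)) hq,
    fun u hu v hv => by rw [hw ⟨u, hu⟩ ⟨v, hv⟩, hw ⟨v, hv⟩ ⟨u, hu⟩, hc.1],
    fun _ _ => min_le_left _ _⟩
  have q0 : (0 : ℝ) < q := by exact_mod_cast lt_of_lt_of_le two_pos ok.q2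
  have b1 := ok.round hc hw (by positivity) (B := J) (by push_cast; rfl) (by linarith)
    (le_of_eq (by field_simp)) θ0.le θ1.le (by
      rw [one_div, inv_mul_eq_div, le_div_iff₀ (by linarith)]
      refine le_trans ?_ hq'
      have : 2 * (n : ℝ) ≤ n ^ 3 := by
        nlinarith [mul_pos (by linarith : (0 : ℝ) < n) (by nlinarith : (0 : ℝ) < n ^ 2 - 2)]
      nlinarith [sq_nonneg (J : ℝ)])
  have b0 : 0 < 2 * (1 - 1 / (J : ℝ)) * (J - 1) / (2 * q ^ 2) ^ 2 :=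
    div_pos (mul_pos (by linarith) (by linarith)) (by positivity)
  obtain ⟨b2, b3⟩ := ratio_ge ok.cubic.1 (hk.comp prj) (fun _ _ _ => hd.2 _ _ _) (b0.trans_le b1)
    (D := (2 * q ^ 2) ^ 2 * 2) (A := 2 * ((∑ u, ∑ v, c u v * d u v) * (J / P318.Phi c)))
    (by positivity) (by
      rw [ok.pull d hk.self hk.symm]
      simp only [sum_mul, hw]
      refine mul_le_mul_of_nonneg_left (sum_le_sum fun u _ => sum_le_sum fun v _ => ?_) zero_le_two
      rw [mul_right_comm]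
      exact mul_le_mul_of_nonneg_right (rnd_up (hc.2.1 u v) (by positivity)) (hk.nonneg u v))
    (by rw [sum_prj2]; gcongr; linarith)
  refine ⟨_, mem_gaps ok.two ok.cubic b2, ?_⟩
  generalize P318.glValue (wc n q _ w) = G, P318.Phi (wc n q _ w) = F,
    ∑ u, ∑ v, c u v * d u v = A, P318.gap n = g, P318.Phi c = φ at *
  have m0 : (0 : ℝ) < (2 * q ^ 2) ^ 2 := by positivity
  generalize (2 * (q : ℝ) ^ 2) ^ 2 = m at *
  have e1 : (J : ℝ) - 1 = (1 - 1 / J) * J := by field_simp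
  have e2 : 3 * (1 + ε) * (1 / J) ≤ ε := by
    rw [mul_one_div, div_le_iff₀ (by linarith)]; linarith
  rw [e1, div_le_iff₀ m0] at b1
  generalize 1 / (J : ℝ) = θ at *
  have e3 : 1 ≤ (1 + ε) * (1 - θ) ^ 3 := by
    have : 1 - 3 * θ ≤ (1 - θ) ^ 3 := by
      nlinarith [mul_nonneg (sq_nonneg θ) (by linarith : 0 ≤ 3 - θ)]
    nlinarith
  have e4 : G * m * φ ≤ A * J := by
    rw [← mul_div_assoc] at b3
    exact (le_div_iff₀ Φ0).1 (by linarith)
  have θ2 : 0 < 1 - θ := by linarith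
  have e5 : (1 - θ) * g * G * m ≤ 2 * J := by
    refine le_of_mul_le_mul_right ?_ Φ0
    have x1 := mul_le_mul_of_nonneg_left e4 (mul_pos θ2 hg).le
    have x2 := mul_le_mul_of_nonneg_right a2.le (by linarith : (0 : ℝ) ≤ 2 * J)
    nlinarith
  have e6 : (1 - θ) ^ 3 * (g * G) ≤ F := by
    refine le_of_mul_le_mul_right ?_ m0
    have := mul_le_mul_of_nonneg_left e5 (sq_nonneg (1 - θ))
    nlinarith
  rw [← mul_div_assoc, le_div_iff₀ b2]
  have x1 := mul_le_mul_of_nonneg_right e3 (mul_pos hg b2).le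
  have x2 := mul_le_mul_of_nonneg_left e6 (by linarith : 0 ≤ 1 + ε)
  nlinarith

end Vale.Agent.N318X
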