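import Vale.Agent.N318X.Sound
import Vale.Agent.N318X.Defs
import Vale.Agent.N318.Reduce

/-!
The wall gadget on `Fin n`.
-/

namespace Vale.Agent.N318X

open Finset Vale.Agent.N318

/-- the data of a wall graph -/
structure Ok (n q W : ℕ) (w : ℕ → ℕ → ℕ) : Prop where
  n2 : 2 ≤ n
  W0 : 0 < W
  hq : n * W ≤ q
  sym : ∀ u < n, ∀ v < n, w u v = w v u
  le : ∀ u v, w u v ≤ W

/-- the capacities of the wall graph -/
def wc (n q W : ℕ) (w : ℕ → ℕ → ℕ) (i j : Fin (n * q * q * 2)) : ℝ := wall q (sg n q W w) i j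

variable {n q W : ℕ} {w : ℕ → ℕ → ℕ}

theorem Ok.q2 (h : Ok n q W w) : 2 ≤ q :=
  (h.n2.trans (Nat.le_mul_of_pos_right n h.W0)).trans h.hq

theorem Ok.pm (h : Ok n q W w) : Pm (n * q) (sg n q W w) := pm_sg h.W0 h.hq h.sym

theorem Ok.two (h : Ok n q W w) : 2 ≤ n * q * q * 2 := by
  have := h.q2
  have := h.n2
  exact Nat.le_mul_of_pos_left 2 (by positivity)

theorem Ok.cubic (h : Ok n q W w) : IsCubic (wc n q W w) := by
  refine ⟨⟨fun i j => by rw [wc, wall_comm]; rfl, fun i j => Nat.cast_nonneg _,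
    fun i => by simp [wc, wall]⟩, fun i j => ?_, fun i => ?_, {i | i.1 % 2 = 0}, fun i j e => ?_⟩
  · unfold wc
    exact_mod_cast wall_le q (sg n q W w) i j
  · exact (Fin.sum_univ_eq_sum_range (fun j => (wall q (sg n q W w) i j : ℝ)) _).trans
      (wall_deg h.q2 h.pm i.2)
  · have : i.1 % 2 ≠ j.1 % 2 := fun k => by simp [wc, wall_par k] at e
    simp only [Set.mem_ofPred_eq]
    omega

theorem sum2 (N : ℕ) (G : ℕ → ℕ → ℝ) :
    ∑ i : Fin N, ∑ j : Fin N, G i j = ∑ i ∈ range N, ∑ j ∈ range N, G i j := by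
  rw [← Fin.sum_univ_eq_sum_range fun i => ∑ j ∈ range N, G i j]
  exact sum_congr rfl fun i _ => Fin.sum_univ_eq_sum_range (G i) N

/-- the projection -/
def prj (i : Fin (n * q * q * 2)) : Fin n := ⟨pj q i, by
  obtain ⟨y, b, hy, hb, e⟩ := dec i.2
  obtain ⟨x, r, hx, hr, rfl⟩ := dec hy
  obtain ⟨v, c, hv, hc, rfl⟩ := dec hx
  rw [e, pj_eq v hc hr hb]
  exact hv⟩

/-- extension by zero -/
def ext2 (d : Fin n → Fin n → ℝ) (u v : ℕ) : ℝ :=
  if h : u < n ∧ v < n then d ⟨u, h.1⟩ ⟨v, h.2⟩ else 0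

theorem ext2_eq (d : Fin n → Fin n → ℝ) (u v : Fin n) : ext2 d u v = d u v := dif_pos ⟨u.2, v.2⟩

theorem sum_prj2 (d : Fin n → Fin n → ℝ) :
    ∑ i : Fin (n * q * q * 2), ∑ j : Fin (n * q * q * 2), d (prj i) (prj j) =
      (2 * q ^ 2) ^ 2 * ∑ u, ∑ v, d u v := by
  simp only [← ext2_eq d]
  rw [sum2 n (ext2 d), ← sum_pj2]
  exact sum2 _ fun i j => ext2 d (pj q i) (pj q j)

theorem sum_prj (g : Fin n → ℝ) :
    ∑ i : Fin (n * q * q * 2), g (prj i) = 2 * q ^ 2 * ∑ u, g u := by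
  have e : ∀ u, g u = ext2 (fun u _ => g u) u u := fun u => (ext2_eq (fun u _ => g u) u u).symm
  rw [sum_congr rfl fun u _ => e u, sum_congr rfl fun i _ => e (prj i),
    Fin.sum_univ_eq_sum_range (fun u => ext2 (fun u _ => g u) u u) n, ← sum_pj]
  exact Fin.sum_univ_eq_sum_range (fun i => ext2 (fun u _ => g u) (pj q i) (pj q i)) _

theorem Ok.pull (h : Ok n q W w) (d : Fin n → Fin n → ℝ) (h0 : ∀ v, d v v = 0)
    (h1 : ∀ u v, d u v = d v u) :
    ∑ i, ∑ j, wc n q W w i j * d (prj i) (prj j) = 2 * ∑ u : Fin n, ∑ v : Fin n, w u v * d u v := by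
  have a : ∀ v, ext2 d v v = 0 := fun v => by unfold ext2; split_ifs <;> simp [h0]
  simp only [← ext2_eq d]
  rw [sum2 n fun u v => w u v * ext2 d u v, ← sum_sg h.W0 h.hq h.le _ a,
    ← N318X.pull h.q2 h.pm _ a fun u v => by
      unfold ext2
      by_cases k : u < n ∧ v < n
      · rw [dif_pos k, dif_pos k.symm, h1]
      · rw [dif_neg k, dif_neg fun k' => k k'.symm]]
  exact sum2 _ fun i j => wall q (sg n q W w) i j * ext2 d (pj q i) (pj q j)

/-- the indicator function of a set -/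
def ind {N : ℕ} (T : Finset (Fin N)) (i : ℕ) : ℝ := ext2 (fun u _ => if u ∈ T then 1 else 0) i i

/-- the set read off from a set of vertices of the wall graph -/
noncomputable def back (n q : ℕ) {N : ℕ} (T : Finset (Fin N)) : Finset (Fin n) :=
  univ.filter fun v => maj q (ind T) v = 1

theorem sum_one {N : ℕ} (S : Finset (Fin N)) :
    ∑ i, ∑ j, |(if i ∈ S then 1 else 0 : ℝ) - (if j ∈ S then 1 else 0)| =
      2 * (S.card * (N - S.card)) := by
  have h2 := sum_ind (c := fun _ _ => 1) (fun _ _ => rfl) S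
  simp only [one_mul, sum_const, nsmul_eq_mul, card_compl, Fintype.card_fin, mul_one] at h2
  rwa [Nat.cast_sub (by simpa using S.card_le_univ)] at h2

theorem Ok.no (h : Ok n q W w) {φ θ : ℝ} (hφ : 0 ≤ φ) (h0 : 0 ≤ θ) (h1 : θ ≤ 1)
    (hθ : 2 * φ * n ≤ θ * q) (T : Finset (Fin (n * q * q * 2)))
    (hP : φ * ((back n q T).card * (n - (back n q T).card)) ≤
      cut (fun u v : Fin n => (w u v : ℝ)) (back n q T)) :
    2 * (1 - θ) * φ / (2 * q ^ 2) ^ 2 * (T.card * ((n * q * q * 2 : ℕ) - T.card)) ≤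
      cut (wc n q W w) T := by
  have e : ∀ u : Fin n, maj q (ind T) u = if u ∈ back n q T then 1 else 0 := fun u => by
    have : maj q (ind T) u = 0 ∨ maj q (ind T) u = 1 := by unfold maj; split_ifs <;> simp
    rcases this with k | k <;> simp [back, k]
  have k := sound h.q2 h.pm hφ h0 h1 hθ (ind T) (fun i => by
    simp only [ind, ext2]
    split_ifs <;> simp) rfl (by
    rw [sum_sg h.W0 h.hq h.le (fun u v => |maj q (ind T) u - maj q (ind T) v|) (by simp),
      ← sum2 n, ← sum2 n]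
    simp only [e]
    rw [sum_one, sum_ind (c := fun u v : Fin n => (w u v : ℝ))
      fun u v => congrArg _ (h.sym u u.2 v v.2)]
    rw [cut] at hP
    linarith)
  rw [← sum2, ← sum2] at k
  simp only [ind, ext2_eq] at k
  rw [sum_one, sum_ind (c := fun i j : Fin (n * q * q * 2) => (wall q (sg n q W w) i j : ℝ))
    h.cubic.1.1] at k
  change _ ≤ 2 * cut (wc n q W w) T at k
  linarith

theorem Ok.yes (h : Ok n q W w) (S : Finset (Fin n)) : ∃ T : Finset (Fin (n * q * q * 2)),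
    T.card = 2 * q ^ 2 * S.card ∧ cut (wc n q W w) T = 2 * ∑ u ∈ S, ∑ v ∈ Sᶜ, (w u v : ℝ) := by
  refine ⟨univ.filter fun i => prj i ∈ S, ?_, ?_⟩
  · have := sum_prj (q := q) fun u => if u ∈ S then 1 else 0
    simp only [sum_boole, filter_mem_eq_inter, univ_inter] at this
    exact_mod_cast this
  · have a := sum_ind h.cubic.1.1 (univ.filter fun i => prj i ∈ S)
    have b := sum_ind (c := fun u v : Fin n => (w u v : ℝ))
      (fun u v => by rw [h.sym u u.2 v v.2]) S
    have c := h.pull (fun u v => |(if u ∈ S then 1 else 0 : ℝ) - if v ∈ S then 1 else 0|)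
      (by simp) fun _ _ => abs_sub_comm _ _
    simp only [mem_filter, mem_univ, true_and] at a
    rw [a, b] at c
    rw [cut]
    linarith

end Vale.Agent.N318X
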