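import Vale.Agent.N318X.Gap

/-!
The wall gadget as a polynomial time reduction, and the decision of the gap problem by an
approximation algorithm.
-/

namespace Vale.Agent.N318X

open Finset Vale.Agent.Lib.PolyTime
open Vale.Agent.P318B (Inst)
open Vale.Agent.P318B.Ax (nd mat)
open Vale.Agent.P318B.Uw (rnd ent)

theorem pair_eq : pair = P325.pair := by
  funext x y
  induction x with
  | nil => rfl
  | cons b x ih => simp [pair, P325.pair, ih]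

theorem codeList_eq : codeList = P325.codeList := by
  funext l
  induction l with
  | nil => rfl
  | cons b x ih => simp [codeList, P325.codeList, ih, pair_eq]

theorem NP_eq : NP = P325.NP := by unfold NP P325.NP; rw [pair_eq]; rfl

theorem codeQ_eq (q : ℚ) : codeQ q = enc (nd q) := by
  rw [P318B.Ax.enc_nd, codeQ, pair_eq]; rfl

theorem code_eq (I : Inst) : code I.cap = enc (mat I) := by
  rw [P318B.Ax.enc_mat, code, codeList_eq]
  simp only [codeQ, pair_eq]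
  rfl

/-- the capacities as real numbers -/
abbrev rc (I : Inst) (i j : Fin I.n) : ℝ := I.cap i j

/-- hardness in terms of the library -/
def HardI (K : ∀ {n : ℕ}, (Fin n → Fin n → ℝ) → Prop) (Y : ∀ {n : ℕ}, Finset (Fin n) → Prop)
    (C : ℝ) : Prop :=
  ∀ L ∈ NP, ∃ (I : List Bool → Inst) (τ : List Bool → ℚ),
    PT ∅ (fun x : Raw => (nd (τ x.w), mat (I x.w))) ∧ ∀ x, K (rc (I x)) ∧ 0 < τ x ∧
      (x ∈ L → ∃ S, Y S ∧ ratio (rc (I x)) S ≤ τ x) ∧ (x ∉ L → C * τ x < (I x).phi)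

variable {K : ∀ {n : ℕ}, (Fin n → Fin n → ℝ) → Prop} {Y : ∀ {n : ℕ}, Finset (Fin n) → Prop}

theorem HardI.hard {C : ℝ} (h : HardI K Y C) : Hard K Y C := fun L hL => by
  obtain ⟨I, τ, ⟨g, hg, hg'⟩, h⟩ := h L hL
  refine ⟨fun x => (I x).n, fun x => (I x).cap, τ, P325.polyTime_iff.2 (hg.congr fun x => ?_),
    fun x => ⟨(I x).two_le, (h x).1, (h x).2.1, (h x).2.2.1, fun hx S hS =>
      ((h x).2.2.2 hx).trans_le (P318B.Ax.phi_le _ hS.1 hS.2)⟩⟩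
  rw [codeQ_eq, code_eq, pair_eq, P325.pair_eq_pr]
  exact hg' ⟨x⟩

theorem Hard.hardI {C : ℝ} (h : Hard IsCap Y C) : HardI IsCap Y C := fun L hL => by
  obtain ⟨n, c, τ, hp, h⟩ := h L hL
  refine ⟨fun x => ⟨n x, (h x).1, c x, (h x).2.1⟩, τ, ⟨_, P325.polyTime_iff.1 hp, fun x => ?_⟩,
    fun x => ⟨(h x).2.1, (h x).2.2.1, (h x).2.2.2.1, fun hx => ?_⟩⟩
  · rw [enc_pair, ← codeQ_eq, ← code_eq, pair_eq, P325.pair_eq_pr]; rfl
  · obtain ⟨S, s0, s1, e⟩ := P318B.Uw.exists_opt ⟨n x, (h x).1, c x, (h x).2.1⟩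
    exact ((h x).2.2.2.2 hx S ⟨s0, s1⟩).trans_eq e.symm

section prog

variable {α : Type} [Enc α] {n q W x y : α → ℕ}

theorem PT_sc (hq : PT ∅ q) (hx : PT ∅ x) : PT ∅ fun a => sc (q a) (x a) :=
  PT.ite ((hx.add (PT.const 1)).lt hq) (hx.add (PT.const 1)) (PT.const 0)

theorem PT_sg {w : α → ℕ → ℕ → ℕ} (hn : PT ∅ n) (hq : PT ∅ q) (hW : PT ∅ W)
    (hw : PT ∅ fun p : α × ℕ × ℕ => w p.1 p.2.1 p.2.2) (hx : PT ∅ x) :
    PT ∅ fun a => sg (n a) (q a) (W a) (w a) (x a) :=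
  have u := (hx.mod hq).div hW
  have t := (hx.mod hq).mod hW
  PT.ite (PT.decide_and (u.lt hn) (t.lt (hw.comp (PT.id.pair ((hx.div hq).pair u)))))
    ((u.mul hq).add (((hx.div hq).mul hW).add t)) hx

theorem PT_ad {s : α → ℕ → ℕ} (hq : PT ∅ q) (hs : PT ∅ fun p : α × ℕ => s p.1 p.2) (hx : PT ∅ x)
    (hy : PT ∅ y) : PT ∅ fun a => ad (q a) (s a) (x a) (y a) :=
  PT.ite (PT.decide_or (hy.eqNat hx) (PT.decide_or
    (hy.eqNat (((((((hx.div hq).div hq).mul hq).add (PT_sc hq ((hx.div hq).mod hq))).mul hq).add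
      (hx.mod hq)) : PT ∅ fun a => hz (q a) (x a)))
    (hy.eqNat (PT.ite (((hx.mod hq).add (PT.const 1)).lt hq) (hx.add (PT.const 1))
      ((hs.comp (PT.id.pair (hx.div hq))).mul hq) : PT ∅ fun a => up (q a) (s a) (x a)))))
    (PT.const 1) (PT.const 0)

theorem PT_wall {s : α → ℕ → ℕ} (hq : PT ∅ q) (hs : PT ∅ fun p : α × ℕ => s p.1 p.2)
    (hx : PT ∅ x) (hy : PT ∅ y) : PT ∅ fun a => wall (q a) (s a) (x a) (y a) :=
  have two : PT ∅ fun _ : α => 2 := PT.const 2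
  PT.ite ((hx.mod two).eqNat (hy.mod two)) (PT.const 0) (PT.ite ((hx.mod two).eqNat (PT.const 1))
    (PT_ad hq hs (hx.div two) (hy.div two)) (PT_ad hq hs (hy.div two) (hx.div two)))

theorem PT_ent {M : α → List (List (ℕ × ℕ))} (hM : PT ∅ M) (hx : PT ∅ x) (hy : PT ∅ y) :
    PT ∅ fun a => ent (M a) (x a) (y a) :=
  PT.getD (PT.getD hM hx (PT.const [])) hy (PT.const (0, 1))

/-- a square table -/
def tab (N : ℕ) (f : ℕ → ℕ → ℕ × ℕ) : List (List (ℕ × ℕ)) :=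
  (List.range N).map fun i => (List.range N).map (f i)

theorem PT_tab {f : α → ℕ → ℕ → ℕ × ℕ} (hn : PT ∅ n) (hb : PBd n)
    (hf : PT ∅ fun p : (α × ℕ) × ℕ => f p.1.1 p.1.2 p.2) : PT ∅ fun a => tab (n a) (f a) :=
  PT.map (PT.range hn hb) (PT.map ((PT.range hn hb).comp PT.fst') hf)

theorem mat_eq (I : Inst) {f : ℕ → ℕ → ℕ × ℕ} (h : ∀ i j : Fin I.n, nd (I.cap i j) = f i j) :
    mat I = tab I.n f := by
  simp only [mat, tab, h, ← P318B.Gd.ofFn_range]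

end prog

/-- the rounded capacities -/
def wM (J n : ℕ) (t : ℕ × ℕ) (M : List (List (ℕ × ℕ))) (u v : ℕ) : ℕ :=
  rnd (J ^ 2 * n ^ 2) (J * n ^ 2) t (ent M u v)

/-- the new matrix -/
def out (J n : ℕ) (t : ℕ × ℕ) (M : List (List (ℕ × ℕ))) : List (List (ℕ × ℕ)) :=
  tab (n * (J * n) ^ 3 * (J * n) ^ 3 * 2) fun i j =>
    (wall ((J * n) ^ 3) (sg n ((J * n) ^ 3) (J ^ 2 * n ^ 2) (wM J n t M)) i j, 1)

theorem PT_out (J : ℕ) :
    PT ∅ fun p : (ℕ × ℕ) × List (List (ℕ × ℕ)) => out J p.2.length p.1 p.2 := by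
  have n1 : PT ∅ fun p : (ℕ × ℕ) × List (List (ℕ × ℕ)) => p.2.length := PT.length PT.snd'
  have n2 : PBd fun p : (ℕ × ℕ) × List (List (ℕ × ℕ)) => p.2.length :=
    PBd.length (A := ∅) PT.snd'
  have q1 := ((PT.const J).mul n1).powConst 3
  have q2 := ((PBd.const J).mul n2).pow 3
  have W1 := (PT.const (J ^ 2)).mul (n1.powConst 2)
  have w1 : PT ∅ fun p : ((ℕ × ℕ) × List (List (ℕ × ℕ))) × ℕ × ℕ =>
      wM J p.1.2.length p.1.1 p.1.2 p.2.1 p.2.2 :=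
    have e := PT_ent PT.fst'.snd PT.snd'.fst PT.snd'.snd
    have W := W1.comp PT.fst'
    PT.min W (PT.div ((e.fst.mul W).mul PT.fst'.fst.snd)
      ((e.snd.mul PT.fst'.fst.fst).mul (((PT.const J).mul (n1.powConst 2)).comp PT.fst')))
  have s1 : PT ∅ fun p : ((ℕ × ℕ) × List (List (ℕ × ℕ))) × ℕ =>
      sg p.1.2.length ((J * p.1.2.length) ^ 3) (J ^ 2 * p.1.2.length ^ 2)
        (wM J p.1.2.length p.1.1 p.1.2) p.2 :=
    PT_sg (n1.comp PT.fst') (q1.comp PT.fst') (W1.comp PT.fst')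
      (w1.comp (PT.fst'.fst.pair PT.snd')) PT.snd'
  exact PT_tab (((n1.mul q1).mul q1).mul (PT.const 2)) (((n2.mul q2).mul q2).mul (PBd.const 2))
    (PT.pair (PT_wall (q1.comp PT.fst'.fst) (s1.comp (PT.fst'.fst.fst.pair PT.snd'))
      PT.fst'.snd PT.snd') (PT.const 1))

/-- the pair `t` represents the positive number `τ` -/
def Rep (t : ℕ × ℕ) (τ : ℝ) : Prop := 0 < τ ∧ 0 < t.2 ∧ (t.1 : ℝ) = τ * t.2

theorem rep_nd {t : ℚ} (ht : 0 < t) : Rep (nd t) t :=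
  ⟨by exact_mod_cast ht, t.den_pos, P318B.Ax.nd_cast ht.le⟩

theorem wM_eq {J : ℕ} (hJ : 0 < J) {t : ℕ × ℕ} {τ : ℝ} (ht : Rep t τ) (I : Inst) (u v : Fin I.n) :
    wM J I.n t (mat I) u v = min (J ^ 2 * I.n ^ 2) ⌊rc I u v * (J / τ)⌋₊ := by
  have n0 : (0 : ℝ) < I.n := by exact_mod_cast (by have := I.two_le; omega : 0 < I.n)
  have h2 : (0 : ℝ) ≤ I.cap u v := I.isCap.2.1 u v
  have c0 : (0 : ℝ) < (nd (I.cap u v)).2 := by exact_mod_cast (I.cap u v).den_pos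
  have t0 : (0 : ℝ) < t.2 := by exact_mod_cast ht.2.1
  have := ht.1
  rw [wM, P318B.Uw.ent_mat, rnd, ← Nat.floor_div_eq_div (K := ℝ)]
  push_cast
  rw [P318B.Ax.nd_cast (by exact_mod_cast h2), ht.2.2]
  congr 2
  field_simp

theorem ok_wM {J : ℕ} (hJ : 0 < J) (t : ℕ × ℕ) (I : Inst) :
    Ok I.n ((J * I.n) ^ 3) (J ^ 2 * I.n ^ 2) (wM J I.n t (mat I)) := by
  have n0 : 0 < I.n := by have := I.two_le; omega
  refine ⟨I.two_le, by positivity, ?_, fun u hu v hv => ?_, fun _ _ => min_le_left _ _⟩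
  · calc _ = 1 * (J ^ 2 * I.n ^ 3) := by ring
      _ ≤ J * (J ^ 2 * I.n ^ 3) := Nat.mul_le_mul_right _ hJ
      _ = _ := by ring
  · have : I.cap ⟨u, hu⟩ ⟨v, hv⟩ = I.cap ⟨v, hv⟩ ⟨u, hu⟩ :=
      Rat.cast_injective (α := ℝ) (I.isCap.1 _ _)
    rw [wM, wM, P318B.Uw.ent_mat I ⟨u, hu⟩ ⟨v, hv⟩, P318B.Uw.ent_mat I ⟨v, hv⟩ ⟨u, hu⟩, this]

/-- the new instance -/
def wI {J : ℕ} (hJ : 0 < J) (t : ℕ × ℕ) (I : Inst) : Inst where
  n := I.n * (J * I.n) ^ 3 * (J * I.n) ^ 3 * 2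
  two_le := (ok_wM hJ t I).two
  cap i j := wall ((J * I.n) ^ 3) (sg I.n ((J * I.n) ^ 3) (J ^ 2 * I.n ^ 2)
    (wM J I.n t (mat I))) i j
  isCap := by
    simp only [Rat.cast_natCast]
    exact (ok_wM hJ t I).cubic.1

theorem rc_wI {J : ℕ} (hJ : 0 < J) (t : ℕ × ℕ) (I : Inst) : rc (wI hJ t I) =
    wc I.n ((J * I.n) ^ 3) (J ^ 2 * I.n ^ 2) (wM J I.n t (mat I)) := by
  funext i j
  exact Rat.cast_natCast _

theorem mat_wI {J : ℕ} (hJ : 0 < J) (t : ℕ × ℕ) (I : Inst) :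
    mat (wI hJ t I) = out J I.n t (mat I) := mat_eq (wI hJ t I) fun _ _ => rfl

theorem ratio_le {n : ℕ} {c : Fin n → Fin n → ℝ} {S : Finset (Fin n)} (h : Proper S) {t : ℝ} :
    ratio c S ≤ t ↔ cut c S ≤ t * (S.card * (n - S.card)) :=
  div_le_iff₀ (P318B.Gd.card_pos_cut h.1 h.2)

theorem proper_iff {n : ℕ} {S : Finset (Fin n)} : Proper S ↔ 0 < S.card ∧ S.card < n := by
  rw [Proper, card_pos, ← card_lt_iff_ne_univ, Fintype.card_fin]

theorem wI_yes {J : ℕ} (hJ : 0 < J) {t : ℕ × ℕ} {τ : ℝ} (ht : Rep t τ) (I : Inst)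
    {S : Finset (Fin I.n)} (s1 : Proper S) (s2 : ratio (rc I) S ≤ τ) :
    ∃ T : Finset (Fin (I.n * (J * I.n) ^ 3 * (J * I.n) ^ 3 * 2)),
      T.card = 2 * ((J * I.n) ^ 3) ^ 2 * S.card ∧ Proper T ∧
      ratio (wc I.n ((J * I.n) ^ 3) (J ^ 2 * I.n ^ 2) (wM J I.n t (mat I))) T ≤
        2 * J / (2 * (((J * I.n) ^ 3 : ℕ) : ℝ) ^ 2) ^ 2 := by
  have ok := ok_wM hJ t I
  have t0 := ht.1
  have q0 : 0 < (J * I.n) ^ 3 := lt_of_lt_of_le two_pos ok.q2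
  have q1 : (0 : ℝ) < ((J * I.n) ^ 3 : ℕ) := by exact_mod_cast q0
  obtain ⟨T, t1, t2⟩ := ok.yes S
  have t3 : Proper T := by
    rw [proper_iff] at s1 ⊢
    rw [t1, show I.n * (J * I.n) ^ 3 * (J * I.n) ^ 3 * 2 = 2 * ((J * I.n) ^ 3) ^ 2 * I.n by ring]
    exact ⟨mul_pos (by positivity) s1.1, Nat.mul_lt_mul_of_pos_left s1.2 (by positivity)⟩
  refine ⟨T, t1, t3, (ratio_le t3).2 ?_⟩
  rw [ratio_le s1] at s2
  have k : ∑ u ∈ S, ∑ v ∈ Sᶜ, (wM J I.n t (mat I) u v : ℝ) ≤ cut (rc I) S * (J / τ) := by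
    simp only [cut, sum_mul, wM_eq hJ ht]
    exact sum_le_sum fun u _ => sum_le_sum fun v _ => rnd_up (I.isCap.2.1 u v) (by positivity)
  have k2 := k.trans (mul_le_mul_of_nonneg_right s2 (by positivity))
  refine (t2.trans_le (mul_le_mul_of_nonneg_left k2 zero_le_two)).trans_eq ?_
  rw [t1]
  generalize (J * I.n) ^ 3 = q at *
  push_cast
  field_simp

theorem wI_no {J : ℕ} {t : ℕ × ℕ} {τ C C' : ℝ} (ht : Rep t τ) (I : Inst) (C1 : 1 ≤ C)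
    (J1 : C < J) (J2 : C + 1 < J * (C - C'))
    {T : Finset (Fin (I.n * (J * I.n) ^ 3 * (J * I.n) ^ 3 * 2))} (t1 : Proper T)
    {S : Finset (Fin I.n)} (e : S = back I.n ((J * I.n) ^ 3) T)
    (h : C * τ * (S.card * (I.n - S.card)) ≤ cut (rc I) S) :
    C' * (2 * J / (2 * (((J * I.n) ^ 3 : ℕ) : ℝ) ^ 2) ^ 2) <
      ratio (wc I.n ((J * I.n) ^ 3) (J ^ 2 * I.n ^ 2) (wM J I.n t (mat I))) T := by
  have J3 : (0 : ℝ) < J := by linarith
  have J0 : 0 < J := by exact_mod_cast J3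
  have ok := ok_wM J0 t I
  have t0 := ht.1
  have q1 : (0 : ℝ) < ((J * I.n) ^ 3 : ℕ) := by exact_mod_cast lt_of_lt_of_le two_pos ok.q2
  have n2 : (2 : ℝ) ≤ I.n := by exact_mod_cast ok.n2
  have k := ok.round' (wM_eq J0 ht _) (B := C * J)
    (θ := 1 / J) (by push_cast; gcongr; nlinarith) (by nlinarith)
    (by positivity) ((div_le_one J3).2 (by linarith)) (by
      have a : 2 * (I.n : ℝ) ≤ I.n ^ 3 := by
        nlinarith [mul_pos (by linarith : (0 : ℝ) < I.n) (by nlinarith : (0 : ℝ) < I.n ^ 2 - 2)]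
      calc _ = C * J * (2 * I.n) := by ring
        _ ≤ J * J * (I.n : ℝ) ^ 3 := by gcongr
        _ = _ := by push_cast; field_simp) T (by
      rw [← e]
      exact le_trans (le_of_eq (by field_simp)) (mul_le_mul_of_nonneg_right h (by positivity)))
  refine lt_of_lt_of_le ?_ ((le_div_iff₀ (P318B.Gd.card_pos_cut t1.1 t1.2)).2 k)
  rw [← mul_div_assoc]
  refine div_lt_div_of_pos_right ?_ (by positivity)
  have : 2 * (1 - 1 / (J : ℝ)) * (C * J - 1) = 2 * (C * J - 1 - C) + 2 / J := by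
    field_simp
    ring
  have : (0 : ℝ) < 2 / J := by positivity
  nlinarith

theorem HardI.cubic {C C' : ℝ} (h : HardI IsCap Y C) (C1 : 1 ≤ C) (hC : C' < C)
    (Y1 : ∀ {n : ℕ} (S : Finset (Fin n)), 2 ≤ n → Y S → Proper S)
    (Y2 : ∀ {n N m : ℕ} (S : Finset (Fin n)) (T : Finset (Fin N)), N = m * n →
      T.card = m * S.card → Proper T → Y S → Y T) : HardI IsCubic Y C' := fun L hL => by
  obtain ⟨I, τ, hp, h⟩ := h L hL
  obtain ⟨J, hJ⟩ := exists_nat_gt (max C ((C + 1) / (C - C')))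
  have J1 : C < J := (le_max_left _ _).trans_lt hJ
  have J2 := (div_lt_iff₀ (sub_pos.2 hC)).1 ((le_max_right _ _).trans_lt hJ)
  have J3 : (0 : ℝ) < J := by linarith
  have J0 : 0 < J := by exact_mod_cast J3
  have n0 : ∀ x, 0 < (I x).n := fun x => by have := (I x).two_le; omega
  have D0 : ∀ x, 0 < 2 * J ^ 11 * (I x).n ^ 12 := fun x => by have := n0 x; positivity
  have eD : ∀ x, ((((2 * J ^ 11 * (I x).n ^ 12 : ℕ) : ℚ)⁻¹ : ℚ) : ℝ) =
      2 * J / (2 * (((J * (I x).n) ^ 3 : ℕ) : ℝ) ^ 2) ^ 2 := fun x => by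
    have : (0 : ℝ) < (I x).n := by exact_mod_cast n0 x
    push_cast
    field_simp
  refine ⟨fun x => wI J0 (nd (τ x)) (I x), fun x => ((2 * J ^ 11 * (I x).n ^ 12 : ℕ) : ℚ)⁻¹, ?_,
    fun x => ?_⟩
  · refine (PT.pair (PT.pair (PT.const 1) ((PT.const (2 * J ^ 11)).mul
      ((PT.length hp.snd).powConst 12))) ((PT_out J).comp hp)).congr fun x => ?_
    have e : (mat (I x.w)).length = (I x.w).n := by simp [mat]
    rw [P318B.Uw.nd_inv (D0 _), e, mat_wI]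
  have ok := ok_wM J0 (nd (τ x)) (I x)
  have ht := rep_nd (h x).2.1
  rw [rc_wI, eD]
  refine ⟨ok.cubic, inv_pos.2 (Nat.cast_pos.2 (D0 x)), fun hx => ?_, fun hx => ?_⟩
  · obtain ⟨S, s1, s2⟩ := (h x).2.2.1 hx
    obtain ⟨T, t1, t2, t3⟩ := wI_yes J0 ht (I x) (Y1 S ok.n2 s1) s2
    exact ⟨T, Y2 S T (by ring) t1 t2 s1, t3⟩
  · obtain ⟨T, t0, t1, e⟩ := P318B.Uw.exists_opt (wI J0 (nd (τ x)) (I x))
    refine (wI_no ht (I x) C1 J1 J2 ⟨t0, t1⟩ rfl (le_trans (mul_le_mul_of_nonneg_right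
      ((h x).2.2.2 hx).le ?_) (phi_cut (I x).isCap _))).trans_eq ?_
    · exact mul_nonneg (Nat.cast_nonneg _) (sub_nonneg.2
        (Nat.cast_le.2 ((card_le_univ _).trans_eq (Fintype.card_fin _))))
    · rw [e, ← rc_wI J0]; rfl

theorem np_of {c : ℚ} (hc : 0 ≤ c) (h : HardI K Y c) {A : List Bool → List Bool}
    (hA : PolyTime A) (ha : ∀ I : Inst, K (rc I) → ∃ S, A (code I.cap) =
      List.ofFn (fun i => decide (i ∈ S)) ∧ Proper S ∧
        ∀ T, Y T → ratio (rc I) S ≤ c * ratio (rc I) T) : NP ⊆ P := fun L hL => by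
  obtain ⟨I, τ, h1, h⟩ := h L hL
  have h2 : PT ∅ fun x : Raw => Raw.mk (A x.w) := ⟨_, P325.polyTime_iff.1 hA, fun _ => rfl⟩
  have h3 : PT ∅ fun x : Raw => A (enc (mat (I x.w))) :=
    PT.listOfRaw (h2.comp (P325.PT_raw h1.snd))
  obtain ⟨g, hg, hg'⟩ := (P318B.Ax.PT_test (nd c)).comp (h1.fst.pair (h1.snd.pair h3))
  refine ⟨g, P325.polyTime_iff.2 hg, fun x => ?_⟩
  obtain ⟨S, sA, s0, sr⟩ := ha (I x) (h x).1
  have e : g x = [P318B.Ax.test (nd c) (nd (τ x)) (mat (I x))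
      (List.ofFn fun i => decide (i ∈ S))] := by
    rw [← sA, code_eq]
    exact hg' ⟨x⟩
  rw [e, List.singleton_inj, P318B.Ax.test_iff hc (h x).2.1.le _ s0.1 s0.2]
  refine ⟨fun hx => ?_, fun hr => by_contra fun hx => ?_⟩
  · obtain ⟨T, t1, t2⟩ := (h x).2.2.1 hx
    exact (sr T t1).trans (mul_le_mul_of_nonneg_left t2 (by exact_mod_cast hc))
  · exact absurd (((h x).2.2.2 hx).trans_le (P318B.Ax.phi_le _ s0.1 s0.2)) (not_lt.2 hr)

end Vale.Agent.N318X
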