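import Vale.Agent.N318X.Wall

/-!
Soundness of the wall gadget.
-/

namespace Vale.Agent.N318X

open Finset Vale.Agent.N318

/-- total variation along the path `e 0, o 0, e 1, o 1, …, e M, o M` -/
noncomputable def tv (e o : ℕ → ℝ) (M : ℕ) : ℝ :=
  ∑ r ∈ range (M + 1), |o r - e r| + ∑ r ∈ range M, |o r - e (r + 1)|

theorem path (e o : ℕ → ℝ) (M : ℕ) : ∀ i ≤ M,
    |e 0 - e i| + |e i - o M| ≤ tv e o M ∧ |e 0 - o i| + |o i - o M| ≤ tv e o M := by
  induction M with
  | zero =>
    intro i hi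
    obtain rfl : i = 0 := by omega
    simp [tv, abs_sub_comm]
  | succ M ih =>
    intro i hi
    have e1 : tv e o (M + 1) = tv e o M + |o (M + 1) - e (M + 1)| + |o M - e (M + 1)| := by
      rw [tv, tv, sum_range_succ _ (M + 1), sum_range_succ (fun r => |o r - e (r + 1)|) M]
      ring
    have a := abs_sub_le (o M) (e (M + 1)) (o (M + 1))
    have a' := abs_sub_comm (o (M + 1)) (e (M + 1))
    rw [e1]
    rcases Nat.lt_or_ge M i with h | h
    · obtain rfl : i = M + 1 := by omega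
      have b := (ih M le_rfl).2
      have c := abs_sub_le (e 0) (o M) (e (M + 1))
      have d := abs_sub_le (e 0) (e (M + 1)) (o (M + 1))
      simp only [sub_self, abs_zero] at b ⊢
      constructor <;> linarith
    · have c := abs_sub_le (e i) (o M) (o (M + 1))
      have d := abs_sub_le (o i) (o M) (o (M + 1))
      constructor <;> linarith [(ih i h).1, (ih i h).2]

theorem two_pts {a b x y T : ℝ} (hx : |a - x| + |x - b| ≤ T) (hy : |a - y| + |y - b| ≤ T) :
    |x - y| ≤ T := by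
  have h1 := abs_sub_le x a y
  have h2 := abs_sub_le x b y
  rw [abs_sub_comm x a] at h1
  rw [abs_sub_comm b y] at h2
  linarith

theorem sum_if (M : ℕ) (G : ℕ → ℝ) :
    ∑ r ∈ range (M + 1), (if r + 1 < M + 1 then G r else 0) = ∑ r ∈ range M, G r := by
  rw [sum_range_succ, if_neg (by omega), add_zero]
  exact sum_congr rfl fun r hr => if_pos (by simpa using hr)

/-- one wall -/
theorem cloud1 (M : ℕ) (e o : ℕ → ℕ → ℝ) (he : ∀ c r, e c r = 0 ∨ e c r = 1)
    (ho : ∀ c r, o c r = 0 ∨ o c r = 1) {B : ℝ}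
    (hB : B = ∑ c ∈ range (M + 1), ∑ r ∈ range (M + 1), (|o c r - e c r| +
      |o c r - e (sc (M + 1) c) r| + if r + 1 < M + 1 then |o c r - e c (r + 1)| else 0)) :
    ∃ t : ℝ, (t = 0 ∨ t = 1) ∧ ∑ c ∈ range (M + 1), (|e c 0 - t| + |t - o c M|) ≤ B ∧
      ∑ c ∈ range (M + 1), ∑ r ∈ range (M + 1), (|e c r - t| + |o c r - t|) ≤
        2 * (M + 1) * B := by
  have col : ∑ c ∈ range (M + 1), tv (e c) (o c) M ≤ B := by
    rw [hB]
    refine sum_le_sum fun c _ => ?_
    rw [sum_add_distrib, sum_add_distrib, sum_if, tv]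
    have : 0 ≤ ∑ r ∈ range (M + 1), |o c r - e (sc (M + 1) c) r| :=
      sum_nonneg fun _ _ => abs_nonneg _
    linarith
  have row : ∑ r ∈ range (M + 1), tv (fun c => e c r) (fun c => o c r) M ≤ B := by
    rw [hB, sum_comm]
    refine sum_le_sum fun r _ => ?_
    rw [tv, ← sum_if M, ← sum_add_distrib]
    refine sum_le_sum fun c _ => ?_
    have : 0 ≤ if r + 1 < M + 1 then |o c r - e c (r + 1)| else 0 := by positivity
    have : (if c + 1 < M + 1 then |o c r - e (c + 1) r| else 0) ≤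
        |o c r - e (sc (M + 1) c) r| := by
      unfold sc
      split_ifs
      exacts [le_rfl, abs_nonneg _]
    linarith
  have easy : ∀ t : ℝ, (∀ c ≤ M, ∃ r ≤ M, e c r = t ∨ o c r = t) →
      ∑ c ∈ range (M + 1), (|e c 0 - t| + |t - o c M|) ≤ B ∧
      ∑ c ∈ range (M + 1), ∑ r ∈ range (M + 1), (|e c r - t| + |o c r - t|) ≤
        2 * (M + 1) * B := fun t h => by
    have k : ∀ c ∈ range (M + 1), |e c 0 - t| + |t - o c M| ≤ tv (e c) (o c) M := fun c hc => by
      obtain ⟨r, hr, k | k⟩ := h c (Nat.lt_succ_iff.1 (mem_range.1 hc)) <;> rw [← k]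
      exacts [(path _ _ M r hr).1, (path _ _ M r hr).2]
    refine ⟨(sum_le_sum k).trans col, le_trans ?_ (mul_le_mul_of_nonneg_left col (by positivity))⟩
    rw [mul_sum]
    refine sum_le_sum fun c hc => (sum_le_sum (g := fun _ => 2 * tv (e c) (o c) M)
      fun r hr => ?_).trans (le_of_eq ?_)
    · have p := path (e c) (o c) M r (Nat.lt_succ_iff.1 (mem_range.1 hr))
      linarith [two_pts p.1 (k c hc), two_pts p.2 (k c hc)]
    · rw [sum_const, card_range, nsmul_eq_mul]; push_cast; ring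
  by_cases h0 : ∀ c ≤ M, ∃ r ≤ M, e c r = 0 ∨ o c r = 0
  · exact ⟨0, Or.inl rfl, easy 0 h0⟩
  by_cases h1 : ∀ c ≤ M, ∃ r ≤ M, e c r = 1 ∨ o c r = 1
  · exact ⟨1, Or.inr rfl, easy 1 h1⟩
  push Not at h0 h1
  obtain ⟨c0, a0, h0⟩ := h0
  obtain ⟨c1, a1, h1⟩ := h1
  have big : (M + 1 : ℝ) ≤ B := by
    refine le_trans (le_of_eq ?_) ((sum_le_sum (f := fun _ => (1 : ℝ)) fun r hr => ?_).trans row)
    · simp
    · have hr := Nat.lt_succ_iff.1 (mem_range.1 hr)
      have := two_pts (path (fun c => e c r) (fun c => o c r) M c0 a0).1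
        (path (fun c => e c r) (fun c => o c r) M c1 a1).1
      rwa [(he c0 r).resolve_left (h0 r hr).1, (he c1 r).resolve_right (h1 r hr).1, sub_zero,
        abs_one] at this
  have mu : ∀ t : ℝ, t = 0 ∨ t = 1 →
      ∑ c ∈ range (M + 1), ∑ r ∈ range (M + 1), (|e c r - t| + |o c r - t|) ≤
        2 * (M + 1) * B := fun t ht => by
    refine le_trans ?_ (mul_le_mul_of_nonneg_left big (by positivity))
    refine (sum_le_sum fun c _ => sum_le_sum (g := fun _ => (2 : ℝ)) fun r _ => ?_).trans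
      (le_of_eq ?_)
    · rcases he c r with a | a <;> rcases ho c r with b | b <;> rcases ht with k | k <;>
        norm_num [a, b, k]
    · simp only [sum_const, card_range, nsmul_eq_mul]; push_cast; ring
  have tot : ∑ c ∈ range (M + 1), (|e c 0 - 0| + |0 - o c M|) +
      ∑ c ∈ range (M + 1), (|e c 0 - 1| + |1 - o c M|) = 2 * (M + 1) := by
    rw [← sum_add_distrib, sum_congr rfl (g := fun _ => (2 : ℝ)) fun c _ => by
      rcases he c 0 with a | a <;> rcases ho c M with b | b <;> norm_num [a, b]]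
    simp only [sum_const, card_range, nsmul_eq_mul]; push_cast; ring
  rcases le_total (∑ c ∈ range (M + 1), (|e c 0 - 0| + |0 - o c M|)) (M + 1) with k | k
  · exact ⟨0, Or.inl rfl, k.trans big, mu 0 (Or.inl rfl)⟩
  · exact ⟨1, Or.inr rfl, by linarith, mu 1 (Or.inr rfl)⟩

/-- the majority of the ends of the columns is a good value for the wall -/
theorem cloud2 (M : ℕ) (e o : ℕ → ℕ → ℝ) (he : ∀ c r, e c r = 0 ∨ e c r = 1)
    (ho : ∀ c r, o c r = 0 ∨ o c r = 1) {B t : ℝ}
    (hB : B = ∑ c ∈ range (M + 1), ∑ r ∈ range (M + 1), (|o c r - e c r| +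
      |o c r - e (sc (M + 1) c) r| + if r + 1 < M + 1 then |o c r - e c (r + 1)| else 0))
    (ht : t = if ((M + 1 : ℕ) : ℝ) < ∑ c ∈ range (M + 1), (e c 0 + o c M) then 1 else 0) :
    ∑ c ∈ range (M + 1), (|e c 0 - t| + |t - o c M|) ≤ B ∧
      ∑ c ∈ range (M + 1), ∑ r ∈ range (M + 1), (|e c r - t| + |o c r - t|) ≤
        2 * (M + 1) * B := by
  obtain ⟨t0, h0, h1, h2⟩ := cloud1 M e o he ho hB
  by_cases k : t0 = t
  · exact k ▸ ⟨h1, h2⟩
  have a0 : ∑ c ∈ range (M + 1), (|e c 0 - 0| + |0 - o c M|) =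
      ∑ c ∈ range (M + 1), (e c 0 + o c M) := sum_congr rfl fun c _ => by
    rcases he c 0 with a | a <;> rcases ho c M with b | b <;> norm_num [a, b]
  have a1 : ∑ c ∈ range (M + 1), (|e c 0 - 1| + |1 - o c M|) =
      2 * (M + 1) - ∑ c ∈ range (M + 1), (e c 0 + o c M) := by
    rw [eq_sub_iff_add_eq, ← sum_add_distrib, sum_congr rfl (g := fun _ => (2 : ℝ)) fun c _ => by
      rcases he c 0 with a | a <;> rcases ho c M with b | b <;> norm_num [a, b]]
    simp only [sum_const, card_range, nsmul_eq_mul]; push_cast; ring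
  have mu : ∑ c ∈ range (M + 1), ∑ r ∈ range (M + 1), (|e c r - t| + |o c r - t|) ≤
      2 * (M + 1) * (M + 1) := by
    refine (sum_le_sum fun c _ => sum_le_sum (g := fun _ => (2 : ℝ)) fun r _ => ?_).trans
      (le_of_eq ?_)
    · rcases he c r with a | a <;> rcases ho c r with b | b <;> rw [ht] <;> split_ifs <;>
        norm_num [a, b]
    · simp only [sum_const, card_range, nsmul_eq_mul]; push_cast; ring
  have : ∑ c ∈ range (M + 1), (|e c 0 - t| + |t - o c M|) ≤ M + 1 ∧ M + 1 ≤ B := by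
    push_cast at ht
    split_ifs at ht with c <;> subst ht
    · obtain rfl := h0.resolve_right k
      constructor <;> linarith
    · obtain rfl := h0.resolve_left k
      constructor <;> linarith
  exact ⟨this.1.trans this.2, mu.trans (mul_le_mul_of_nonneg_left this.2 (by positivity))⟩

/-- the value read off from the wall of `v` -/
noncomputable def maj (q : ℕ) (F : ℕ → ℝ) (v : ℕ) : ℝ :=
  if (q : ℝ) < ∑ c ∈ range q, (F (((v * q + c) * q + 0) * 2) +
    F (((v * q + c) * q + (q - 1)) * 2 + 1)) then 1 else 0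

variable {n q : ℕ} {s : ℕ → ℕ}

theorem sum_pj2 (d : ℕ → ℕ → ℝ) :
    ∑ i ∈ range (n * q * q * 2), ∑ j ∈ range (n * q * q * 2), d (pj q i) (pj q j) =
      (2 * q ^ 2) ^ 2 * ∑ u ∈ range n, ∑ v ∈ range n, d u v := by
  rw [sum_congr rfl fun i _ => sum_pj (d (pj q i)), ← mul_sum,
    sum_pj fun u => ∑ v ∈ range n, d u v]
  ring

theorem sound (hq : 2 ≤ q) (hs : Pm (n * q) s) {φ θ : ℝ} (hφ : 0 ≤ φ) (h0 : 0 ≤ θ) (h1 : θ ≤ 1)
    (hθ : 2 * φ * n ≤ θ * q) (F : ℕ → ℝ) (hF : Bool01 F) {t : ℕ → ℝ} (ht : t = maj q F)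
    (hP : φ * ∑ u ∈ range n, ∑ v ∈ range n, |t u - t v| ≤
      ∑ x ∈ range (n * q), |t (x / q) - t (s x / q)|) :
    2 * (1 - θ) * φ / (2 * q ^ 2) ^ 2 *
        ∑ i ∈ range (n * q * q * 2), ∑ j ∈ range (n * q * q * 2), |F i - F j| ≤
      ∑ i ∈ range (n * q * q * 2), ∑ j ∈ range (n * q * q * 2), wall q s i j * |F i - F j| := by
  obtain ⟨M, rfl⟩ : ∃ k, q = k + 1 := ⟨q - 1, by omega⟩
  have t2 := fun v => cloud2 M (fun c r => F (((v * (M + 1) + c) * (M + 1) + r) * 2))
    (fun c r => F (((v * (M + 1) + c) * (M + 1) + r) * 2 + 1)) (fun _ _ => hF _)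
    (fun _ _ => hF _) rfl (t := t v) (congrFun ht v)
  have b2 := sum_le_sum fun v (_ : v ∈ range n) => (t2 v).1
  have b3 := sum_le_sum fun v (_ : v ∈ range n) => (t2 v).2
  rw [← mul_sum] at b3
  set q := M + 1 with hM
  have hMq : M < q := by omega
  set B := ∑ v ∈ range n, ∑ c ∈ range q, ∑ r ∈ range q,
    (|F (((v * q + c) * q + r) * 2 + 1) - F (((v * q + c) * q + r) * 2)| +
      |F (((v * q + c) * q + r) * 2 + 1) - F (((v * q + sc q c) * q + r) * 2)| +
      if r + 1 < q then |F (((v * q + c) * q + r) * 2 + 1) - F (((v * q + c) * q + (r + 1)) * 2)|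
      else 0) with hB
  set I := ∑ x ∈ range (n * q), |F ((x * q + M) * 2 + 1) - F ((s x * q + 0) * 2)| with hI
  set μ := ∑ i ∈ range (n * q * q * 2), |F i - t (pj q i)| with hμ
  set T := ∑ u ∈ range n, ∑ v ∈ range n, |t u - t v| with hT
  have e1 : ∑ i ∈ range (n * q * q * 2), ∑ j ∈ range (n * q * q * 2),
      wall q s i j * |F i - F j| = 2 * (B + I) := by
    rw [sum_wall hq hs (fun i j => |F i - F j|) fun _ _ => abs_sub_comm _ _, hB, hI,
      sum_mul_range, sum_mul_range, sum_mul_range, ← sum_add_distrib]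
    refine congrArg _ (sum_congr rfl fun v _ => ?_)
    rw [← sum_add_distrib]
    refine sum_congr rfl fun c hc => ?_
    rw [← sum_last (q := q) (by omega) |F (((v * q + c) * q + M) * 2 + 1) - _|, ← sum_add_distrib]
    refine sum_congr rfl fun r hr => ?_
    have hr := mem_range.1 hr
    rw [hz_eq v (mem_range.1 hc) hr, up_eq s _ hr, sc.eq_1 q r]
    split_ifs with h
    · ring
    · obtain rfl : r = M := by omega
      ring
  have e2 : μ ≤ 2 * q * B := by
    refine le_trans (le_of_eq ?_) (b3.trans (le_of_eq (by rw [hM]; push_cast; rfl)))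
    rw [hμ, sum_two, sum_mul_range, sum_mul_range]
    refine sum_congr rfl fun v _ => sum_congr rfl fun c hc => sum_congr rfl fun r hr => ?_
    have := pj_eq v (mem_range.1 hc) (mem_range.1 hr) (b := 0) (by omega)
    rw [add_zero] at this
    rw [this, pj_eq v (mem_range.1 hc) (mem_range.1 hr) (by omega)]
  have e3 : φ * T ≤ B + I := by
    refine hP.trans (le_trans ?_ (add_le_add_left b2 I))
    have : ∑ v ∈ range n, ∑ c ∈ range q, (|F (((v * q + c) * q + 0) * 2) - t v| +
        |t v - F (((v * q + c) * q + M) * 2 + 1)|) =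
        ∑ x ∈ range (n * q), (|F ((s x * q + 0) * 2) - t (s x / q)| +
          |t (x / q) - F ((x * q + M) * 2 + 1)|) := by
      rw [sum_add_distrib (s := range (n * q)), hs.sum fun x => |F ((x * q + 0) * 2) - t (x / q)|,
        ← sum_add_distrib, sum_mul_range]
      exact sum_congr rfl fun v _ => sum_congr rfl fun c hc => by rw [dv v (mem_range.1 hc)]
    rw [this, hI, ← sum_add_distrib]
    refine sum_le_sum fun x _ => ?_
    linarith [abs_sub_le (t (x / q)) (F ((x * q + M) * 2 + 1)) (t (s x / q)),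
      abs_sub_le (F ((x * q + M) * 2 + 1)) (F ((s x * q + 0) * 2)) (t (s x / q))]
  have e4 : ∑ i ∈ range (n * q * q * 2), ∑ j ∈ range (n * q * q * 2), |F i - F j| ≤
      2 * (n * q * q * 2) * μ + (2 * q ^ 2) ^ 2 * T := by
    rw [hT, ← sum_pj2 fun u v => |t u - t v|]
    refine (sum_le_sum fun i _ => sum_le_sum (g := fun j => |F i - t (pj q i)| +
      |F j - t (pj q j)| + |t (pj q i) - t (pj q j)|) fun j _ => ?_).trans (le_of_eq ?_)
    · linarith [abs_sub_le (F i) (t (pj q i)) (F j), abs_sub_le (t (pj q i)) (t (pj q j)) (F j),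
        abs_sub_comm (F j) (t (pj q j))]
    · simp only [sum_add_distrib, sum_const, card_range, nsmul_eq_mul, ← mul_sum, ← hμ]
      push_cast
      ring
  have q0 : (0 : ℝ) < q := by exact_mod_cast (by omega : 0 < q)
  have μ0 : 0 ≤ μ := sum_nonneg fun _ _ => abs_nonneg _
  have I0 : 0 ≤ I := sum_nonneg fun _ _ => abs_nonneg _
  have θ1 : 0 ≤ 1 - θ := by linarith
  rw [e1]
  refine (mul_le_mul_of_nonneg_left e4 (by positivity)).trans ?_
  have e5 : 2 * (1 - θ) * φ / (2 * q ^ 2) ^ 2 * (2 * (n * q * q * 2) * μ + (2 * q ^ 2) ^ 2 * T) =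
      (1 - θ) * (2 * φ * n / q * (μ / q)) + 2 * (1 - θ) * (φ * T) := by
    field_simp
  have e6 : 2 * φ * n / q * (μ / q) ≤ θ * (2 * B) :=
    mul_le_mul ((div_le_iff₀ q0).2 hθ) ((div_le_iff₀ q0).2 (by linarith)) (by positivity) h0
  have e7 : (1 - θ) * (2 * φ * n / q * (μ / q)) ≤ θ * (2 * B) :=
    (mul_le_of_le_one_left (by positivity) (by linarith)).trans e6
  rw [e5]
  nlinarith [mul_le_mul_of_nonneg_left e3 θ1, mul_nonneg h0 I0]

end Vale.Agent.N318X
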