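import Vale.Agent.N318.Cloud

/-!
The wall gadget: every vertex of an integer-weighted graph is replaced by a hexagonal wall; the
result is a cubic bipartite graph whose sparsest cut and relaxation change by a factor near one.
-/

namespace Vale.Agent.N318X

open Finset Vale.Agent.N318

theorem sum_mul_range (a b : ℕ) (F : ℕ → ℝ) :
    ∑ i ∈ range (a * b), F i = ∑ x ∈ range a, ∑ y ∈ range b, F (x * b + y) := by
  induction a with
  | zero => simp
  | succ a ih => rw [Nat.succ_mul, sum_range_add, ih, sum_range_succ]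

theorem dv {q r : ℕ} (x : ℕ) (h : r < q) : (x * q + r) / q = x := by
  rw [mul_comm, Nat.mul_add_div (by omega), Nat.div_eq_of_lt h, add_zero]

theorem md {q r : ℕ} (x : ℕ) (h : r < q) : (x * q + r) % q = r := by
  rw [mul_comm, Nat.mul_add_mod, Nat.mod_eq_of_lt h]

theorem lt_mul {a q x r : ℕ} (hx : x < a) (h : r < q) : x * q + r < a * q := by
  have := Nat.mul_le_mul_right q (Nat.succ_le_of_lt hx)
  rw [Nat.succ_mul] at this
  omega

theorem dec {a q y : ℕ} (h : y < a * q) : ∃ x r, x < a ∧ r < q ∧ y = x * q + r := by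
  have hq : 0 < q := Nat.pos_of_mul_pos_left (Nat.zero_lt_of_lt h)
  exact ⟨y / q, y % q, Nat.div_lt_of_lt_mul (by rwa [mul_comm]), Nat.mod_lt _ hq,
    (Nat.div_add_mod' y q).symm⟩

/-- cyclic successor -/
def sc (q c : ℕ) : ℕ := if c + 1 < q then c + 1 else 0

/-- the matching of the ports -/
def sg (n q W : ℕ) (w : ℕ → ℕ → ℕ) (x : ℕ) : ℕ :=
  if x % q / W < n ∧ x % q % W < w (x / q) (x % q / W) then
    x % q / W * q + (x / q * W + x % q % W) else x

/-- the horizontal step -/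
def hz (q y : ℕ) : ℕ := (y / q / q * q + sc q (y / q % q)) * q + y % q

/-- the vertical step -/
def up (q : ℕ) (s : ℕ → ℕ) (y : ℕ) : ℕ := if y % q + 1 < q then y + 1 else s (y / q) * q

/-- adjacency between the two sides -/
def ad (q : ℕ) (s : ℕ → ℕ) (y z : ℕ) : ℕ := if z = y ∨ z = hz q y ∨ z = up q s y then 1 else 0

/-- the capacities of the wall graph -/
def wall (q : ℕ) (s : ℕ → ℕ) (i j : ℕ) : ℕ :=
  if i % 2 = j % 2 then 0 else if i % 2 = 1 then ad q s (i / 2) (j / 2) else ad q s (j / 2) (i / 2)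

theorem sc_lt {q : ℕ} (hq : 0 < q) (c : ℕ) : sc q c < q := by unfold sc; split_ifs <;> omega

theorem hz_eq {q c r : ℕ} (v : ℕ) (hc : c < q) (hr : r < q) :
    hz q ((v * q + c) * q + r) = (v * q + sc q c) * q + r := by
  rw [hz, dv _ hr, md _ hr, dv _ hc, md _ hc]

theorem up_eq {q r : ℕ} (s : ℕ → ℕ) (x : ℕ) (hr : r < q) :
    up q s (x * q + r) = (if r + 1 < q then x else s x) * q + sc q r := by
  rw [up, dv _ hr, md _ hr, sc]
  split_ifs <;> rfl

theorem pair_inj {q x r x' r' : ℕ} (hr : r < q) (hr' : r' < q) (h : x * q + r = x' * q + r') :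
    x = x' ∧ r = r' :=
  ⟨by rw [← dv x hr, h, dv _ hr'], by rw [← md x hr, h, md _ hr']⟩

theorem wall_comm (q : ℕ) (s : ℕ → ℕ) (i j : ℕ) : wall q s i j = wall q s j i := by
  unfold wall
  split_ifs <;> first | rfl | omega

theorem wall_le (q : ℕ) (s : ℕ → ℕ) (i j : ℕ) : wall q s i j = 0 ∨ wall q s i j = 1 := by
  unfold wall ad
  split_ifs <;> simp

theorem wall_par {q : ℕ} {s : ℕ → ℕ} {i j : ℕ} (h : i % 2 = j % 2) : wall q s i j = 0 := if_pos h

/-- a map of an initial segment to itself which is injective there -/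
def Pm (M : ℕ) (T : ℕ → ℕ) : Prop := (∀ y < M, T y < M) ∧ ∀ y < M, ∀ z < M, T y = T z → y = z

theorem Pm.sum {M : ℕ} {T : ℕ → ℕ} (h : Pm M T) (F : ℕ → ℝ) :
    ∑ y ∈ range M, F (T y) = ∑ y ∈ range M, F y := by
  have hi : Set.InjOn T (range M) := fun y hy z hz =>
    h.2 y (by simpa using hy) z (by simpa using hz)
  have e : (range M).image T = range M := eq_of_subset_of_card_le
    (image_subset_iff.2 fun y hy => mem_range.2 (h.1 y (mem_range.1 hy)))
    (card_image_of_injOn hi).ge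
  conv_rhs => rw [← e, sum_image hi]

variable {n q : ℕ} {s : ℕ → ℕ}

theorem pm_hz : Pm (n * q * q) (hz q) := by
  refine ⟨fun y hy => ?_, fun y hy z hz e => ?_⟩
  · obtain ⟨x, r, hx, hr, rfl⟩ := dec hy
    obtain ⟨v, c, hv, hc, rfl⟩ := dec hx
    rw [hz_eq v hc hr]
    exact lt_mul (lt_mul hv (sc_lt (by omega) _)) hr
  · obtain ⟨x, r, hx, hr, rfl⟩ := dec hy
    obtain ⟨v, c, hv, hc, rfl⟩ := dec hx
    obtain ⟨x', r', hx', hr', rfl⟩ := dec hz
    obtain ⟨v', c', hv', hc', rfl⟩ := dec hx'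
    rw [hz_eq v hc hr, hz_eq v' hc' hr'] at e
    obtain ⟨e1, rfl⟩ := pair_inj hr hr' e
    obtain ⟨rfl, e2⟩ := pair_inj (sc_lt (by omega) _) (sc_lt (by omega) _) e1
    obtain rfl : c = c' := by unfold sc at e2; split_ifs at e2 <;> omega
    rfl

theorem pm_up {a : ℕ} (hs : Pm a s) : Pm (a * q) (up q s) := by
  refine ⟨fun y hy => ?_, fun y hy z hz e => ?_⟩
  · obtain ⟨x, r, hx, hr, rfl⟩ := dec hy
    rw [up_eq s x hr]
    refine lt_mul ?_ (sc_lt (by omega) _)
    split_ifs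
    exacts [hx, hs.1 x hx]
  · obtain ⟨x, r, hx, hr, rfl⟩ := dec hy
    obtain ⟨x', r', hx', hr', rfl⟩ := dec hz
    rw [up_eq s x hr, up_eq s x' hr'] at e
    obtain ⟨e1, e2⟩ := pair_inj (sc_lt (by omega) _) (sc_lt (by omega) _) e
    obtain rfl : r = r' := by unfold sc at e2; split_ifs at e2 <;> omega
    split_ifs at e1
    · rw [e1]
    · rw [hs.2 x hx x' hx' e1]

theorem ad_eq (hq : 2 ≤ q) {y : ℕ} (hy : y < n * q * q) (z : ℕ) : (ad q s y z : ℝ) =
    (if z = y then 1 else 0) + (if z = hz q y then 1 else 0) + if z = up q s y then 1 else 0 := by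
  obtain ⟨x, r, hx, hr, rfl⟩ := dec hy
  obtain ⟨v, c, hv, hc, rfl⟩ := dec hx
  have a : ∀ c, sc q c ≠ c := fun c => by unfold sc; split_ifs <;> omega
  have b := sc_lt (q := q) (by omega)
  have h1 : hz q ((v * q + c) * q + r) ≠ (v * q + c) * q + r := fun e => by
    rw [hz_eq v hc hr] at e
    exact a c (pair_inj (b _) hc (pair_inj hr hr e).1).2
  have h2 : up q s ((v * q + c) * q + r) ≠ (v * q + c) * q + r := fun e => by
    rw [up_eq s _ hr] at e
    exact a r (pair_inj (b _) hr e).2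
  have h3 : up q s ((v * q + c) * q + r) ≠ hz q ((v * q + c) * q + r) := fun e => by
    rw [up_eq s _ hr, hz_eq v hc hr] at e
    exact a r (pair_inj (b _) hr e).2
  unfold ad
  generalize hz q _ = y1, up q s _ = y2 at *
  generalize (v * q + c) * q + r = y0 at *
  split_ifs <;> first | omega | simp

theorem sum_ad (hq : 2 ≤ q) (hs : Pm (n * q) s) {y : ℕ} (hy : y < n * q * q) (G : ℕ → ℝ) :
    ∑ z ∈ range (n * q * q), ad q s y z * G z = G y + G (hz q y) + G (up q s y) := by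
  simp only [ad_eq hq hy, add_mul, sum_add_distrib, ite_mul, one_mul, zero_mul, sum_ite_eq',
    mem_range, hy, pm_hz.1 y hy, (pm_up hs).1 y hy, if_true]

theorem Pm.one {M : ℕ} {T : ℕ → ℕ} (h : Pm M T) {z : ℕ} (hz : z < M) :
    ∑ y ∈ range M, (if z = T y then (1 : ℝ) else 0) = 1 := by
  rw [h.sum fun y => if z = y then (1 : ℝ) else 0]
  simp [hz]

theorem sum_two (M : ℕ) (F : ℕ → ℝ) :
    ∑ i ∈ range (M * 2), F i = ∑ y ∈ range M, (F (y * 2) + F (y * 2 + 1)) := by
  rw [sum_mul_range]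
  simp only [sum_range_succ, sum_range_zero, zero_add, add_zero]

theorem wall_oe (y z : ℕ) : wall q s (y * 2 + 1) (z * 2) = ad q s y z := by
  rw [wall, if_neg (by omega), if_pos (by omega)]
  congr 1 <;> omega

theorem wall_deg (hq : 2 ≤ q) (hs : Pm (n * q) s) {i : ℕ} (hi : i < n * q * q * 2) :
    ∑ j ∈ range (n * q * q * 2), (wall q s i j : ℝ) = 3 := by
  obtain ⟨y, b, hy, hb, rfl⟩ := dec hi
  rw [sum_two]
  obtain rfl | rfl : b = 0 ∨ b = 1 := by omega
  · rw [sum_congr rfl fun z hz => by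
      rw [wall_par (by omega), wall_comm, add_zero, wall_oe, ad_eq hq (mem_range.1 hz),
        Nat.cast_zero, zero_add]]
    rw [sum_add_distrib, sum_add_distrib, pm_hz.one hy, (pm_up hs).one hy]
    simp [hy]
    norm_num
  · rw [sum_congr rfl fun z hz => by
      rw [wall_par (i := y * 2 + 1) (j := z * 2 + 1) (by omega), wall_oe, Nat.cast_zero, add_zero,
        ← mul_one (ad q s y z : ℝ)]]
    rw [sum_ad hq hs hy fun _ => 1]
    norm_num

theorem sum_wall (hq : 2 ≤ q) (hs : Pm (n * q) s) (G : ℕ → ℕ → ℝ) (hG : ∀ i j, G i j = G j i) :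
    ∑ i ∈ range (n * q * q * 2), ∑ j ∈ range (n * q * q * 2), wall q s i j * G i j =
      2 * ∑ y ∈ range (n * q * q), (G (y * 2 + 1) (y * 2) + G (y * 2 + 1) (hz q y * 2) +
        G (y * 2 + 1) (up q s y * 2)) := by
  have e : ∑ y ∈ range (n * q * q), ∑ z ∈ range (n * q * q), ad q s y z * G (y * 2 + 1) (z * 2) =
      _ := sum_congr rfl fun y hy => sum_ad hq hs (mem_range.1 hy) fun z => G (y * 2 + 1) (z * 2)
  rw [← e, two_mul, sum_two, sum_add_distrib]
  congr 1
  · rw [sum_comm (f := fun y z => ad q s y z * G (y * 2 + 1) (z * 2))]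
    refine sum_congr rfl fun z _ => ?_
    rw [sum_two]
    refine sum_congr rfl fun y _ => ?_
    rw [wall_par (by omega), wall_comm, wall_oe, hG (z * 2) (y * 2 + 1)]
    simp
  · refine sum_congr rfl fun y _ => ?_
    rw [sum_two]
    refine sum_congr rfl fun z _ => ?_
    rw [wall_par (i := y * 2 + 1) (j := z * 2 + 1) (by omega), wall_oe]
    simp

section ports

variable {W : ℕ} {w : ℕ → ℕ → ℕ}

theorem sg_eq {v c : ℕ} (hc : c < q) : sg n q W w (v * q + c) =
    if c / W < n ∧ c % W < w v (c / W) then c / W * q + (v * W + c % W) else v * q + c := by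
  rw [sg, dv _ hc, md _ hc]

theorem sg_sg (hW : 0 < W) (hq : n * W ≤ q) (hw : ∀ u < n, ∀ v < n, w u v = w v u) {x : ℕ}
    (hx : x < n * q) : sg n q W w x < n * q ∧ sg n q W w (sg n q W w x) = x := by
  obtain ⟨v, c, hv, hc, rfl⟩ := dec hx
  by_cases h : c / W < n ∧ c % W < w v (c / W)
  · have a := Nat.mod_lt c hW
    have b : v * W + c % W < q := (lt_mul hv a).trans_le hq
    rw [sg_eq hc, if_pos h, sg_eq b, dv _ a, md _ a, if_pos ⟨hv, hw v hv _ h.1 ▸ h.2⟩,
      Nat.div_add_mod']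
    exact ⟨lt_mul h.1 b, rfl⟩
  · rw [sg_eq hc, if_neg h, sg_eq hc, if_neg h]
    exact ⟨hx, rfl⟩

theorem pm_sg (hW : 0 < W) (hq : n * W ≤ q) (hw : ∀ u < n, ∀ v < n, w u v = w v u) :
    Pm (n * q) (sg n q W w) :=
  ⟨fun _ hx => (sg_sg hW hq hw hx).1, fun y hy z hz e => by
    rw [← (sg_sg hW hq hw hy).2, e, (sg_sg hW hq hw hz).2]⟩

theorem sum_sg (hW : 0 < W) (hq : n * W ≤ q) (hw : ∀ u v, w u v ≤ W) (d : ℕ → ℕ → ℝ)
    (hd : ∀ v, d v v = 0) : ∑ x ∈ range (n * q), d (x / q) (sg n q W w x / q) =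
      ∑ v ∈ range n, ∑ u ∈ range n, w v u * d v u := by
  rw [sum_mul_range]
  refine sum_congr rfl fun v hv => ?_
  have e : ∀ c ∈ range q, d ((v * q + c) / q) (sg n q W w (v * q + c) / q) =
      if c / W < n ∧ c % W < w v (c / W) then d v (c / W) else 0 := fun c hc => by
    have hc := mem_range.1 hc
    rw [sg_eq hc, dv _ hc]
    split_ifs with h
    · rw [dv _ ((lt_mul (mem_range.1 hv) (Nat.mod_lt c hW)).trans_le hq)]
    · rw [dv _ hc, hd]
  rw [sum_congr rfl e, ← sum_subset (range_subset_range.2 hq) fun c _ hc => if_neg fun h =>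
    hc (mem_range.2 ((Nat.div_lt_iff_lt_mul hW).1 h.1)), sum_mul_range]
  refine sum_congr rfl fun u hu => ?_
  rw [sum_congr rfl fun t ht => by rw [dv u (mem_range.1 ht), md u (mem_range.1 ht)], ← sum_filter]
  have : (range W).filter (fun t => u < n ∧ t < w v u) = range (w v u) := by
    ext t
    have := hw v u
    have := mem_range.1 hu
    simp only [mem_filter, mem_range]
    omega
  rw [this, sum_const, card_range, nsmul_eq_mul]

end ports

/-- the projection to the old vertices -/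
def pj (q i : ℕ) : ℕ := i / 2 / q / q

theorem pj_eq {c r : ℕ} (v : ℕ) (hc : c < q) (hr : r < q) {b : ℕ} (hb : b < 2) :
    pj q (((v * q + c) * q + r) * 2 + b) = v := by
  rw [pj, dv _ hb, dv _ hr, dv _ hc]

theorem sum_pj (g : ℕ → ℝ) :
    ∑ i ∈ range (n * q * q * 2), g (pj q i) = 2 * q ^ 2 * ∑ v ∈ range n, g v := by
  rw [sum_mul_range, sum_mul_range, sum_mul_range, mul_sum]
  refine sum_congr rfl fun v _ => ?_
  rw [sum_congr rfl fun c hc => sum_congr rfl fun r hr => sum_congr rfl fun b hb => by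
    rw [pj_eq v (mem_range.1 hc) (mem_range.1 hr) (mem_range.1 hb)]]
  simp only [sum_const, card_range, nsmul_eq_mul]
  push_cast
  ring

theorem sum_last (hq : 0 < q) (a : ℝ) : ∑ r ∈ range q, (if r + 1 < q then 0 else a) = a := by
  obtain ⟨q, rfl⟩ : ∃ k, q = k + 1 := ⟨q - 1, by omega⟩
  rw [sum_range_succ, if_neg (by omega), sum_eq_zero fun r hr => if_pos (by simpa using hr),
    zero_add]

/-- pulling back a kernel -/
theorem pull (hq : 2 ≤ q) (hs : Pm (n * q) s) (d : ℕ → ℕ → ℝ) (hd : ∀ v, d v v = 0)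
    (hd' : ∀ u v, d u v = d v u) :
    ∑ i ∈ range (n * q * q * 2), ∑ j ∈ range (n * q * q * 2), wall q s i j * d (pj q i) (pj q j) =
      2 * ∑ x ∈ range (n * q), d (x / q) (s x / q) := by
  rw [sum_wall hq hs (fun i j => d (pj q i) (pj q j)) fun _ _ => hd' _ _, sum_mul_range (n * q)]
  congr 1
  refine sum_congr rfl fun x hx => ?_
  rw [← sum_last (q := q) (by omega) (d (x / q) (s x / q))]
  refine sum_congr rfl fun r hr => ?_
  have hr := mem_range.1 hr
  obtain ⟨v, c, hv, hc, rfl⟩ := dec (mem_range.1 hx)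
  have b := sc_lt (q := q) (by omega)
  have p0 : ∀ {c r}, c < q → r < q → pj q (((v * q + c) * q + r) * 2) = v := fun hc hr =>
    pj_eq v hc hr (b := 0) (by omega)
  rw [hz_eq v hc hr, up_eq s _ hr, pj_eq v hc hr (by omega), p0 hc hr, p0 (b c) hr, hd, dv _ hc]
  split_ifs with h
  · rw [p0 hc (b r), hd]; simp
  · rw [pj, Nat.mul_div_cancel _ two_pos, dv _ (b r)]; simp

end Vale.Agent.N318X
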